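import Claimed.Agent.R257.Infra.Alg
import Claimed.Agent.R257.Sp.Defs
import Claimed.Agent.Lib.BD.Ker

/-!
# R257 / Infra / Repro : unit U10 = REPRODUCING KERNEL AND THE LOCALLY CONSTANT PROPERTY OF EXACT FIELDS        (captain of INFRA: helper53; plan: report 853 sec. D, U10)

Paper H: fractal.tex l.153-168, transverse.tex l.113-135 (exponents below one), packets.tex (p:sup-convolution).      PAPER-FREE.
* `inf_repro_ker` : ONE kernel `κ(x,t) = κ¹(x) κ²(t)` for all data in the ball `R₀`:  `ext g z = ∫ κ(y) ext g (z - y) dy`, `κ` continuous, rapidly decreasing.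
  Tools (all PROVED in `Lib/BD/Ker.lean`): `BD.bdb_ker1` (Schwartz kernel whose transform is `1` on a ball), `BD.bdb_schwartz_decay`, `BD.bdb_decay_prod`;   `car ξ z = BD.ch (⟪z.1, ξ⟫ - z.2 |ξ|²)`.
* `inf_lc_all` : `|ext g (y)|^P ≤ C ∫ |ext g (w)|^P (1 + |w - z|)^{-E} dw` for `|y - z| ≤ r`, EVERY `P > 0`;   `inf_lc : LcStmt n` (contract of `Sp/Defs.lean`).
(For exponents `≥ 1` and unit cubes there is a kernel-free alternative: `inf_ext_sup_cube` of `Infra/ArrB.lean`.)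
Every `sorry` is a LEAF `L-INF-C*` (name in the docstring).  Statements frozen (tell helper53 at once if one looks false or awkward); prove IN PLACE, helper lemmas directly above your theorem, prefix `inf_<leaf>_`.
-/

set_option autoImplicit false

namespace Claimed.Agent.R257

open MeasureTheory Metric Set
open scoped ENNReal ContDiff InnerProductSpace

variable {n : ℕ}

theorem inf_C1_car_neg (ξ : E n) (y : ST n) :
    car ξ (-y) = BD.ch (-(inner ℝ y.1 ξ)) * BD.ch (-(inner ℝ y.2 (-‖ξ‖ ^ 2))) := by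
  unfold car BD.ch
  rw [← Complex.exp_add]
  congr 1
  have h1 : (inner ℝ y.2 (-‖ξ‖ ^ 2) : ℝ) = -(y.2 * ‖ξ‖ ^ 2) := by
    simp [mul_comm]
  rw [h1, Prod.fst_neg, Prod.snd_neg, inner_neg_left]
  push_cast
  ring

theorem inf_C1_one {K₁ : E n → ℂ} {K₂ : ℝ → ℂ} {ξ : E n} (h₁ : ∫ y, BD.ch (-(inner ℝ y ξ)) * K₁ y = 1)
    (h₂ : ∫ y : ℝ, BD.ch (-(inner ℝ y (-‖ξ‖ ^ 2))) * K₂ y = 1) :
    ∫ y : ST n, car ξ (-y) * (K₁ y.1 * K₂ y.2) = 1 := by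
  have e := integral_prod_mul (μ := (volume : Measure (E n))) (ν := (volume : Measure ℝ))
    (fun y => BD.ch (-(inner ℝ y ξ)) * K₁ y) (fun y => BD.ch (-(inner ℝ y (-‖ξ‖ ^ 2))) * K₂ y)
  rw [h₁, h₂, one_mul, ← Measure.volume_eq_prod] at e
  rw [← e]
  refine integral_congr_ae (Filter.Eventually.of_forall fun y => ?_)
  show car ξ (-y) * (K₁ y.1 * K₂ y.2) = BD.ch (-(inner ℝ y.1 ξ)) * K₁ y.1 * (BD.ch (-(inner ℝ y.2 (-‖ξ‖ ^ 2))) * K₂ y.2)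
  rw [inf_C1_car_neg]
  ring

theorem inf_C1_cont (z : ST n) : Continuous fun p : ST n × E n => car p.2 (z - p.1) := by
  have h2 : Continuous fun p : ST n × E n => ((p.2, z - p.1) : E n × ST n) := by fun_prop
  have := (inf_car_continuous (n := n)).comp h2
  exact this

theorem inf_C1_fub {κ : ST n → ℂ} {g : E n → ℂ} (hκ : Integrable κ) (hg : Integrable g) (z : ST n) :
    Integrable (Function.uncurry fun (y : ST n) (ξ : E n) => car ξ (z - y) * g ξ * κ y) (volume.prod volume) := by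
  have h0 : Integrable (fun p : ST n × E n => κ p.1 * g p.2) (volume.prod volume) := hκ.mul_prod hg
  have h1 : Integrable (fun p : ST n × E n => car p.2 (z - p.1) * (κ p.1 * g p.2)) (volume.prod volume) := by
    refine h0.bdd_mul (c := 1) ?_ ?_
    · exact (inf_C1_cont z).aestronglyMeasurable
    · exact Filter.Eventually.of_forall fun p => (inf_car_norm _ _).le
  refine h1.congr (Filter.Eventually.of_forall fun p => ?_)
  show car p.2 (z - p.1) * (κ p.1 * g p.2) = car p.2 (z - p.1) * g p.2 * κ p.1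
  ring

theorem inf_C1_repro {κ : ST n → ℂ} {g : E n → ℂ} (hκ : Integrable κ) (hg : Integrable g)
    (hone : ∀ ξ : E n, g ξ ≠ 0 → ∫ y : ST n, car ξ (-y) * κ y = 1) (z : ST n) :
    ext g z = ∫ y, κ y * ext g (z - y) := by
  have hsub : ∀ (y : ST n) (ξ : E n), car ξ (z - y) = car ξ z * car ξ (-y) := by
    intro y ξ
    rw [sub_eq_add_neg, inf_car_add]
  calc ext g z = ∫ ξ, car ξ z * g ξ := rfl
    _ = ∫ ξ, ∫ y : ST n, car ξ (z - y) * g ξ * κ y := by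
        refine integral_congr_ae (Filter.Eventually.of_forall fun ξ => ?_)
        show car ξ z * g ξ = ∫ y : ST n, car ξ (z - y) * g ξ * κ y
        by_cases hξ : g ξ = 0
        · simp [hξ]
        · have : ∀ y : ST n, car ξ (z - y) * g ξ * κ y = (car ξ z * g ξ) * (car ξ (-y) * κ y) := by
            intro y
            rw [hsub]
            ring
          simp only [this]
          rw [integral_const_mul, hone ξ hξ, mul_one]
    _ = ∫ y : ST n, ∫ ξ, car ξ (z - y) * g ξ * κ y := (integral_integral_swap (inf_C1_fub hκ hg z)).symm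
    _ = ∫ y : ST n, κ y * ext g (z - y) := by
        refine integral_congr_ae (Filter.Eventually.of_forall fun y => ?_)
        show ∫ ξ, car ξ (z - y) * g ξ * κ y = κ y * ext g (z - y)
        rw [integral_mul_const, mul_comm]
        rfl

/-- L-INF-C1 (~250 l.).  **The reproducing kernel.**   `R = max (max R₀ (R₀²)) 1`;  `K₁`, `K₂` from `BD.bdb_ker1` on `E n` and on `ℝ`;  `κ y = K₁ y.1 * K₂ y.2`.
`∫ κ(y) car ξ (-y) dy = (∫ K₁(x) e^{-i⟪x,ξ⟫} dx) (∫ K₂(t) e^{-i t (-|ξ|²)} dt) = 1` for `|ξ| ≤ R₀` (`integral_prod_mul`);   Fubini (`κ` integrable, `g` integrable: `inf_dat_integrable`), `inf_car_add`.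
Model: the proof of `BD.exists_ker`. -/
theorem inf_repro_ker (n : ℕ) (R₀ : ℝ) : ∃ κ : ST n → ℂ, Continuous κ ∧ Integrable κ ∧ (∀ M : ℝ, ∃ C : ℝ, 0 ≤ C ∧ ∀ y, ‖κ y‖ ≤ C * (1 + ‖y‖) ^ (-M)) ∧
    ∀ g : E n → ℂ, Dat R₀ g → ∀ z, ext g z = ∫ y, κ y * ext g (z - y) := by
  have hR : (0 : ℝ) < max (max R₀ (R₀ ^ 2)) 1 := lt_of_lt_of_le one_pos (le_max_right _ _)
  obtain ⟨K₁, h₁⟩ := BD.bdb_ker1 (E := E n) hR
  obtain ⟨K₂, h₂⟩ := BD.bdb_ker1 (E := ℝ) hR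
  have hKint : Integrable (fun y : ST n => K₁ y.1 * K₂ y.2) := by
    rw [Measure.volume_eq_prod]
    exact K₁.integrable.mul_prod K₂.integrable
  refine ⟨fun y => K₁ y.1 * K₂ y.2, (K₁.continuous.comp continuous_fst).mul (K₂.continuous.comp continuous_snd), hKint,
    fun M => BD.bdb_decay_prod (BD.bdb_schwartz_decay K₁) (BD.bdb_schwartz_decay K₂) M, ?_⟩
  intro g hg z
  refine inf_C1_repro hKint (inf_dat_integrable hg) (fun ξ hξ0 => ?_) z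
  have hξ := hg.supp ξ hξ0
  have hξ2 : ‖(-‖ξ‖ ^ 2 : ℝ)‖ ≤ max (max R₀ (R₀ ^ 2)) 1 := by
    rw [norm_neg, Real.norm_of_nonneg (by positivity)]
    exact ((pow_le_pow_left₀ (norm_nonneg _) hξ 2).trans (le_max_right _ _)).trans (le_max_left _ _)
  exact inf_C1_one (h₁ _ ((hξ.trans (le_max_left _ _)).trans (le_max_left _ _))) (h₂ _ hξ2)

/-- L-INF-C2 (~60 l.).  Peetre: `(1 + |w - z|) ≤ (1 + |y - z|) (1 + |w - y|)`, any real exponent `E ≥ 0`. -/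
theorem inf_peetre {V : Type} [SeminormedAddCommGroup V] (y z w : V) {Ew : ℝ} (hE : 0 ≤ Ew) :
    (1 + ‖w - y‖) ^ (-Ew) ≤ (1 + ‖y - z‖) ^ Ew * (1 + ‖w - z‖) ^ (-Ew) := by
  have h1 : (0 : ℝ) < 1 + ‖w - y‖ := by linarith [norm_nonneg (w - y)]
  have h2 : (0 : ℝ) < 1 + ‖y - z‖ := by linarith [norm_nonneg (y - z)]
  have h3 : (0 : ℝ) < 1 + ‖w - z‖ := by linarith [norm_nonneg (w - z)]
  have h4 : 1 + ‖w - z‖ ≤ (1 + ‖y - z‖) * (1 + ‖w - y‖) := by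
    have : ‖w - z‖ ≤ ‖w - y‖ + ‖y - z‖ := by
      have := norm_add_le (w - y) (y - z)
      rwa [sub_add_sub_cancel] at this
    nlinarith [norm_nonneg (w - y), norm_nonneg (y - z), mul_nonneg (norm_nonneg (y - z)) (norm_nonneg (w - y))]
  have h5 : (1 + ‖w - z‖) ^ Ew ≤ (1 + ‖y - z‖) ^ Ew * (1 + ‖w - y‖) ^ Ew := by
    rw [← Real.mul_rpow h2.le h1.le]
    exact Real.rpow_le_rpow h3.le h4 hE
  rw [Real.rpow_neg h1.le, Real.rpow_neg h3.le, ← div_eq_mul_inv, le_div_iff₀ (Real.rpow_pos_of_pos h3 _),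
    inv_mul_le_iff₀ (Real.rpow_pos_of_pos h1 _)]
  linarith [h5, mul_comm ((1 + ‖y - z‖) ^ Ew) ((1 + ‖w - y‖) ^ Ew)]

-- BEGIN C2

/-- Jensen for the measure `a dμ` -/
theorem inf_C2_jensen {α : Type*} [MeasurableSpace α] (μ : Measure α) (a f : α → ℝ≥0∞) (ha : AEMeasurable a μ) (hf : AEMeasurable f μ)
    {P : ℝ} (hP : 1 ≤ P) : (∫⁻ x, a x * f x ∂μ) ^ P ≤ (∫⁻ x, a x ∂μ) ^ (P - 1) * ∫⁻ x, a x * f x ^ P ∂μ := by
  rcases eq_or_lt_of_le hP with rfl | hP1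
  · simp
  have hP0 : 0 < P := by linarith
  have hpq : P.HolderConjugate (P / (P - 1)) := Real.HolderConjugate.conjExponent hP1
  have hq0 : 0 < P / (P - 1) := hpq.symm.pos
  have h1 := ENNReal.lintegral_mul_le_Lp_mul_Lq μ hpq (f := fun x => a x ^ (1 / P) * f x) (g := fun x => a x ^ (1 / (P / (P - 1))))
    ((ha.pow_const _).mul hf) (ha.pow_const _)
  have e1 : ∀ x, ((fun x => a x ^ (1 / P) * f x) * fun x => a x ^ (1 / (P / (P - 1)))) x = a x * f x := by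
    intro x
    have : a x = a x ^ (1 / P) * a x ^ (1 / (P / (P - 1))) := by
      rw [← ENNReal.rpow_add_of_nonneg _ _ (by positivity) (by positivity)]
      have := hpq.inv_add_inv_eq_one
      rw [one_div, one_div, this, ENNReal.rpow_one]
    simp only [Pi.mul_apply]
    conv_rhs => rw [this]
    ring
  have e2 : ∀ x, (a x ^ (1 / P) * f x) ^ P = a x * f x ^ P := by
    intro x
    rw [ENNReal.mul_rpow_of_nonneg _ _ hP0.le, ← ENNReal.rpow_mul, one_div, inv_mul_cancel₀ hP0.ne', ENNReal.rpow_one]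
  have e3 : ∀ x, (a x ^ (1 / (P / (P - 1)))) ^ (P / (P - 1)) = a x := by
    intro x
    rw [← ENNReal.rpow_mul, one_div, inv_mul_cancel₀ hq0.ne', ENNReal.rpow_one]
  simp only [e1, e2, e3] at h1
  calc (∫⁻ x, a x * f x ∂μ) ^ P ≤ ((∫⁻ x, a x * f x ^ P ∂μ) ^ (1 / P) * (∫⁻ x, a x ∂μ) ^ (1 / (P / (P - 1)))) ^ P :=
        ENNReal.rpow_le_rpow h1 hP0.le
    _ = (∫⁻ x, a x ∂μ) ^ (P - 1) * ∫⁻ x, a x * f x ^ P ∂μ := by
        rw [ENNReal.mul_rpow_of_nonneg _ _ hP0.le, ← ENNReal.rpow_mul, ← ENNReal.rpow_mul, one_div, inv_mul_cancel₀ hP0.ne',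
          ENNReal.rpow_one, mul_comm]
        congr 2
        field_simp

/-- the pointwise convolution bound -/
theorem inf_C2_conv {κ : ST n → ℂ} {F : ST n → ℂ} (h : ∀ z, F z = ∫ y, κ y * F (z - y)) (y : ST n) :
    ‖F y‖ₑ ≤ ∫⁻ w, ‖κ (y - w)‖ₑ * ‖F w‖ₑ := by
  have hh : (volume : Measure (ST n)).IsAddHaarMeasure := by rw [Measure.volume_eq_prod]; infer_instance
  calc ‖F y‖ₑ = ‖∫ u, κ u * F (y - u)‖ₑ := by rw [← h y]
    _ ≤ ∫⁻ u, ‖κ u * F (y - u)‖ₑ := enorm_integral_le_lintegral_enorm _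
    _ = ∫⁻ u, ‖κ u‖ₑ * ‖F (y - u)‖ₑ := by simp only [enorm_mul]
    _ = ∫⁻ w, ‖κ (y - w)‖ₑ * ‖F w‖ₑ := by
        rw [← lintegral_sub_left_eq_self (fun u => ‖κ u‖ₑ * ‖F (y - u)‖ₑ) y]
        simp only [sub_sub_cancel]

/-- decay of the kernel + Peetre, in `ℝ≥0∞` -/
theorem inf_C2_ker {κ : ST n → ℂ} {C A r : ℝ} (hA : 0 ≤ A) (hC : 0 ≤ C) (hκ : ∀ y, ‖κ y‖ ≤ C * (1 + ‖y‖) ^ (-A)) (z y w : ST n)
    (hy : ‖y - z‖ ≤ r) : ‖κ (y - w)‖ₑ ≤ ENNReal.ofReal (C * (1 + r) ^ A) * ENNReal.ofReal ((1 + ‖w - z‖) ^ (-A)) := by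
  have hr : 0 ≤ r := (norm_nonneg _).trans hy
  rw [← ENNReal.ofReal_mul (by positivity), ← ofReal_norm]
  refine ENNReal.ofReal_le_ofReal ((hκ _).trans ?_)
  rw [mul_assoc]
  refine mul_le_mul_of_nonneg_left ?_ hC
  rw [norm_sub_rev]
  refine (inf_peetre y z w hA).trans ?_
  refine mul_le_mul_of_nonneg_right ?_ (Real.rpow_nonneg (by positivity) _)
  exact Real.rpow_le_rpow (by positivity) (by linarith) hA

/-- weights: a larger exponent gives a smaller weight -/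
theorem inf_C2_wt (Ew : ℝ) (u : ST n) : ENNReal.ofReal ((1 + ‖u‖) ^ (-(max Ew 0))) ≤ ENNReal.ofReal ((1 + ‖u‖) ^ (-Ew)) :=
  ENNReal.ofReal_le_ofReal (Real.rpow_le_rpow_of_exponent_le (by linarith [norm_nonneg u]) (by simp))

/-- L-INF-C2 (~200 l.).  **Exponents `P ≥ 1`**: `|F(y)| ≤ ∫ |κ(y - w)| |F(w)| dw`, Jensen/Hölder for the finite measure `|κ| dw`: `|F(y)|^P ≤ ‖κ‖₁^{P-1} ∫ |κ(y - w)| |F(w)|^P dw`;  decay of `κ` of order `max Ew 0`, `inf_peetre`. -/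
theorem inf_lc_ge_one (n : ℕ) (R₀ P Ew r : ℝ) (hP : 1 ≤ P) : ∃ C : ℝ, 0 ≤ C ∧ ∀ (g : E n → ℂ) (z y : ST n), Dat R₀ g → ‖y - z‖ ≤ r →
    ‖ext g y‖ₑ ^ P ≤ ENNReal.ofReal C * ∫⁻ w, ‖ext g w‖ₑ ^ P * ENNReal.ofReal ((1 + ‖w - z‖) ^ (-Ew)) := by
  obtain ⟨κ, hκc, hκi, hκd, hκr⟩ := inf_repro_ker n R₀
  obtain ⟨C₀, hC₀, hdec⟩ := hκd (max Ew 0)
  have hh : (volume : Measure (ST n)).IsAddHaarMeasure := by rw [Measure.volume_eq_prod]; infer_instance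
  have hI : ∫⁻ u, ‖κ u‖ₑ ≠ ⊤ := hκi.2.ne
  refine ⟨(∫⁻ u, ‖κ u‖ₑ).toReal ^ (P - 1) * (C₀ * (1 + |r|) ^ (max Ew 0)), by positivity, ?_⟩
  intro g z y hg hy
  have hFc : Continuous (ext g) := inf_ext_continuous hg
  have hm1 : Measurable fun w => ‖κ (y - w)‖ₑ := (hκc.comp (continuous_const.sub continuous_id)).enorm.measurable
  have hm2 : Measurable fun w => ‖ext g w‖ₑ := hFc.enorm.measurable
  have h1 : ‖ext g y‖ₑ ≤ ∫⁻ w, ‖κ (y - w)‖ₑ * ‖ext g w‖ₑ := inf_C2_conv (hκr g hg) y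
  have h2 := inf_C2_jensen volume (fun w => ‖κ (y - w)‖ₑ) (fun w => ‖ext g w‖ₑ) hm1.aemeasurable hm2.aemeasurable hP
  have h3 : ∫⁻ w, ‖κ (y - w)‖ₑ = ∫⁻ u, ‖κ u‖ₑ := lintegral_sub_left_eq_self (fun u => ‖κ u‖ₑ) y
  rw [h3] at h2
  have h4 : ∫⁻ w, ‖κ (y - w)‖ₑ * ‖ext g w‖ₑ ^ P ≤
      ENNReal.ofReal (C₀ * (1 + |r|) ^ (max Ew 0)) * ∫⁻ w, ‖ext g w‖ₑ ^ P * ENNReal.ofReal ((1 + ‖w - z‖) ^ (-Ew)) := by
    rw [← lintegral_const_mul' _ _ ENNReal.ofReal_ne_top]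
    refine lintegral_mono fun w => ?_
    calc ‖κ (y - w)‖ₑ * ‖ext g w‖ₑ ^ P
        ≤ (ENNReal.ofReal (C₀ * (1 + |r|) ^ (max Ew 0)) * ENNReal.ofReal ((1 + ‖w - z‖) ^ (-(max Ew 0)))) * ‖ext g w‖ₑ ^ P :=
          mul_le_mul_left (inf_C2_ker (le_max_right _ _) hC₀ hdec z y w (hy.trans (le_abs_self r))) _
      _ ≤ (ENNReal.ofReal (C₀ * (1 + |r|) ^ (max Ew 0)) * ENNReal.ofReal ((1 + ‖w - z‖) ^ (-Ew))) * ‖ext g w‖ₑ ^ P :=
          mul_le_mul_left (mul_le_mul_right (inf_C2_wt Ew (w - z)) _) _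
      _ = _ := by ring
  have h5 : ENNReal.ofReal ((∫⁻ u, ‖κ u‖ₑ).toReal ^ (P - 1)) = (∫⁻ u, ‖κ u‖ₑ) ^ (P - 1) := by
    rw [← ENNReal.ofReal_rpow_of_nonneg ENNReal.toReal_nonneg (by linarith), ENNReal.ofReal_toReal hI]
  calc ‖ext g y‖ₑ ^ P ≤ (∫⁻ w, ‖κ (y - w)‖ₑ * ‖ext g w‖ₑ) ^ P := ENNReal.rpow_le_rpow h1 (by linarith)
    _ ≤ (∫⁻ u, ‖κ u‖ₑ) ^ (P - 1) * ∫⁻ w, ‖κ (y - w)‖ₑ * ‖ext g w‖ₑ ^ P := h2
    _ ≤ (∫⁻ u, ‖κ u‖ₑ) ^ (P - 1) * (ENNReal.ofReal (C₀ * (1 + |r|) ^ (max Ew 0)) *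
          ∫⁻ w, ‖ext g w‖ₑ ^ P * ENNReal.ofReal ((1 + ‖w - z‖) ^ (-Ew))) := mul_le_mul_right h4 _
    _ = _ := by
        rw [ENNReal.ofReal_mul (p := (∫⁻ u, ‖κ u‖ₑ).toReal ^ (P - 1)) (by positivity), h5, mul_assoc]

/-- the weight `(1 + |u|)^s` in `ℝ≥0∞` -/
noncomputable def infC3W (s : ℝ) (u : ST n) : ℝ≥0∞ := ENNReal.ofReal ((1 + ‖u‖) ^ s)

theorem inf_C3_w_mul (s t : ℝ) (u : ST n) : infC3W s u * infC3W t u = infC3W (s + t) u := by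
  have h : (0 : ℝ) < 1 + ‖u‖ := by linarith [norm_nonneg u]
  unfold infC3W
  rw [← ENNReal.ofReal_mul (Real.rpow_nonneg h.le _), Real.rpow_add h]

theorem inf_C3_w_pow (s t : ℝ) (ht : 0 ≤ t) (u : ST n) : infC3W s u ^ t = infC3W (s * t) u := by
  have h : (0 : ℝ) < 1 + ‖u‖ := by linarith [norm_nonneg u]
  unfold infC3W
  rw [ENNReal.ofReal_rpow_of_nonneg (Real.rpow_nonneg h.le _) ht, Real.rpow_mul h.le]

theorem inf_C3_w_zero (u : ST n) : infC3W 0 u = 1 := by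
  unfold infC3W
  simp

theorem inf_C3_w_le_one {s : ℝ} (hs : s ≤ 0) (u : ST n) : infC3W s u ≤ 1 := by
  unfold infC3W
  rw [ENNReal.ofReal_le_one]
  exact Real.rpow_le_one_of_one_le_of_nonpos (by linarith [norm_nonneg u]) hs

theorem inf_C3_w_meas (s : ℝ) (z : ST n) : Measurable fun w : ST n => infC3W s (w - z) := by
  unfold infC3W
  have : Continuous fun w : ST n => (1 + ‖w - z‖) ^ s :=
    Continuous.rpow_const (by fun_prop) fun w => Or.inl (by linarith [norm_nonneg (w - z)] : (1 + ‖w - z‖) ≠ 0)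
  exact this.measurable.ennreal_ofReal

/-- abstract absorption: `M ≤ M^{1-P} X`, `M < ∞` gives `M^P ≤ X` -/
theorem inf_C3_absorb {M X : ℝ≥0∞} {P : ℝ} (hP : 0 < P) (hP1 : P < 1) (hM : M ≠ ⊤) (h : M ≤ M ^ (1 - P) * X) : M ^ P ≤ X := by
  rcases eq_or_ne M 0 with rfl | h0
  · rw [ENNReal.zero_rpow_of_pos hP]; exact zero_le
  have h1 : M ^ (1 - P) ≠ 0 := by
    rw [Ne, ENNReal.rpow_eq_zero_iff]
    push Not
    exact ⟨fun h => absurd h h0, fun h => absurd h hM⟩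
  have h2 : M ^ (1 - P) ≠ ⊤ := ENNReal.rpow_ne_top_of_nonneg (by linarith) hM
  have h3 : M ^ (1 - P) * M ^ P = M := by
    rw [← ENNReal.rpow_add _ _ h0 hM]; simp
  rw [← h3] at h
  conv_rhs at h => rw [h3]
  exact (ENNReal.mul_le_mul_iff_right h1 h2).1 h

/-- the maximal function argument for a bounded continuous function reproduced by `κ` -/
theorem inf_C3_max {κ F : ST n → ℂ} {C₀ A P B : ℝ} (hA : 0 ≤ A) (hC₀ : 0 ≤ C₀) (hP : 0 < P) (hP1 : P < 1)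
    (hdec : ∀ y, ‖κ y‖ ≤ C₀ * (1 + ‖y‖) ^ (-A)) (hrep : ∀ z, F z = ∫ y, κ y * F (z - y)) (hFc : Continuous F) (hB : ∀ z, ‖F z‖ ≤ B)
    (z y : ST n) : ‖F y‖ₑ ^ P ≤ ENNReal.ofReal C₀ * (∫⁻ w, ‖F w‖ₑ ^ P * infC3W (-(A * P)) (w - z)) * infC3W (A * P) (y - z) := by
  have hMfin : (⨆ y, ‖F y‖ₑ * infC3W (-A) (y - z)) ≠ ⊤ := by
    refine ne_top_of_le_ne_top (ENNReal.ofReal_ne_top (r := B)) (iSup_le fun y => ?_)
    calc ‖F y‖ₑ * infC3W (-A) (y - z) ≤ ‖F y‖ₑ * 1 := mul_le_mul_right (inf_C3_w_le_one (by linarith) _) _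
      _ = ‖F y‖ₑ := mul_one _
      _ ≤ ENNReal.ofReal B := by rw [← ofReal_norm]; exact ENNReal.ofReal_le_ofReal (hB y)
  have hFM : ∀ w, ‖F w‖ₑ ≤ (⨆ y, ‖F y‖ₑ * infC3W (-A) (y - z)) * infC3W A (w - z) := by
    intro w
    calc ‖F w‖ₑ = ‖F w‖ₑ * (infC3W (-A) (w - z) * infC3W A (w - z)) := by
          rw [inf_C3_w_mul, neg_add_cancel, inf_C3_w_zero, mul_one]
      _ = (‖F w‖ₑ * infC3W (-A) (w - z)) * infC3W A (w - z) := by ring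
      _ ≤ _ := mul_le_mul_left (le_iSup (fun y => ‖F y‖ₑ * infC3W (-A) (y - z)) w) _
  have hpt : ∀ y, ‖F y‖ₑ * infC3W (-A) (y - z) ≤ (⨆ y, ‖F y‖ₑ * infC3W (-A) (y - z)) ^ (1 - P) *
      (ENNReal.ofReal C₀ * ∫⁻ w, ‖F w‖ₑ ^ P * infC3W (-(A * P)) (w - z)) := by
    intro y
    generalize (⨆ y, ‖F y‖ₑ * infC3W (-A) (y - z)) = M at hMfin hFM
    have hm : Measurable fun w => ‖F w‖ₑ ^ P * infC3W (-(A * P)) (w - z) :=
      (hFc.enorm.measurable.pow_const _).mul (inf_C3_w_meas _ z)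
    have hk : ∀ w, ‖κ (y - w)‖ₑ * ‖F w‖ₑ ≤
        (ENNReal.ofReal C₀ * infC3W A (y - z) * M ^ (1 - P)) * (‖F w‖ₑ ^ P * infC3W (-(A * P)) (w - z)) := by
      intro w
      have k1 : ‖κ (y - w)‖ₑ ≤ ENNReal.ofReal C₀ * infC3W A (y - z) * infC3W (-A) (w - z) := by
        have := inf_C2_ker hA hC₀ hdec z y w le_rfl
        rwa [ENNReal.ofReal_mul hC₀] at this
      have k2 : ‖F w‖ₑ ≤ ‖F w‖ₑ ^ P * (M ^ (1 - P) * infC3W (A * (1 - P)) (w - z)) := by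
        calc ‖F w‖ₑ = ‖F w‖ₑ ^ P * ‖F w‖ₑ ^ (1 - P) := by
              rw [← ENNReal.rpow_add_of_nonneg _ _ hP.le (by linarith)]; simp
          _ ≤ ‖F w‖ₑ ^ P * (M * infC3W A (w - z)) ^ (1 - P) :=
              mul_le_mul_right (ENNReal.rpow_le_rpow (hFM w) (by linarith)) _
          _ = _ := by rw [ENNReal.mul_rpow_of_nonneg _ _ (by linarith), inf_C3_w_pow _ _ (by linarith)]
      calc ‖κ (y - w)‖ₑ * ‖F w‖ₑ
          ≤ (ENNReal.ofReal C₀ * infC3W A (y - z) * infC3W (-A) (w - z)) *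
            (‖F w‖ₑ ^ P * (M ^ (1 - P) * infC3W (A * (1 - P)) (w - z))) := mul_le_mul' k1 k2
        _ = (ENNReal.ofReal C₀ * infC3W A (y - z) * M ^ (1 - P)) *
            (‖F w‖ₑ ^ P * (infC3W (-A) (w - z) * infC3W (A * (1 - P)) (w - z))) := by ring
        _ = _ := by
            rw [inf_C3_w_mul]
            congr 4
            ring
    calc ‖F y‖ₑ * infC3W (-A) (y - z) ≤ (∫⁻ w, ‖κ (y - w)‖ₑ * ‖F w‖ₑ) * infC3W (-A) (y - z) :=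
          mul_le_mul_left (inf_C2_conv hrep y) _
      _ ≤ (∫⁻ w, (ENNReal.ofReal C₀ * infC3W A (y - z) * M ^ (1 - P)) * (‖F w‖ₑ ^ P * infC3W (-(A * P)) (w - z))) *
            infC3W (-A) (y - z) := mul_le_mul_left (lintegral_mono hk) _
      _ = (ENNReal.ofReal C₀ * infC3W A (y - z) * M ^ (1 - P)) * (∫⁻ w, ‖F w‖ₑ ^ P * infC3W (-(A * P)) (w - z)) *
            infC3W (-A) (y - z) := by rw [lintegral_const_mul _ hm]
      _ = M ^ (1 - P) * (ENNReal.ofReal C₀ * ∫⁻ w, ‖F w‖ₑ ^ P * infC3W (-(A * P)) (w - z)) *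
            (infC3W A (y - z) * infC3W (-A) (y - z)) := by ring
      _ = _ := by rw [inf_C3_w_mul, add_neg_cancel, inf_C3_w_zero, mul_one]
  have hM := inf_C3_absorb hP hP1 hMfin (iSup_le hpt)
  calc ‖F y‖ₑ ^ P ≤ ((⨆ y, ‖F y‖ₑ * infC3W (-A) (y - z)) * infC3W A (y - z)) ^ P := ENNReal.rpow_le_rpow (hFM y) hP.le
    _ = (⨆ y, ‖F y‖ₑ * infC3W (-A) (y - z)) ^ P * infC3W (A * P) (y - z) := by
        rw [ENNReal.mul_rpow_of_nonneg _ _ hP.le, inf_C3_w_pow _ _ hP.le]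
    _ ≤ _ := mul_le_mul_left hM _

/-- L-INF-C3 (~350 l.).  **Exponents `0 < P < 1`** (transverse.tex l.113-135).   `F = ext g` is bounded (`inf_ext_bound`).  `A = max Ew 0 / P`,  `M(z) = sup_y |F(y)| (1 + |y - z|)^{-A} < ∞`.
In `|F(y)| ≤ ∫ |κ(y - w)| |F(w)| dw` insert `|F(w)| ≤ |F(w)|^P M(z)^{1-P} (1 + |w - z|)^{A(1-P)}`; Peetre and `(1 + |y - w|)^A |κ(y - w)| ≤ C`...:
`|F(y)| (1 + |y - z|)^{-A} ≤ C M(z)^{1-P} ∫ (1 + |w - z|)^{-AP} |F(w)|^P dw`  (use decay of `κ` of order `A + n + 2` and keep one integrable factor, or bound `(1+|y-w|)^{A}|κ(y-w)| ≤ C` and `(1+|w-z|)^{A(1-P) - A} = (1+|w-z|)^{-AP}`).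
Take the supremum over `y`, divide by `M(z)^{1-P}` (`M(z) = 0` is trivial). -/
theorem inf_lc_lt_one (n : ℕ) (R₀ P Ew r : ℝ) (hP : 0 < P) (hP1 : P < 1) : ∃ C : ℝ, 0 ≤ C ∧ ∀ (g : E n → ℂ) (z y : ST n), Dat R₀ g → ‖y - z‖ ≤ r →
    ‖ext g y‖ₑ ^ P ≤ ENNReal.ofReal C * ∫⁻ w, ‖ext g w‖ₑ ^ P * ENNReal.ofReal ((1 + ‖w - z‖) ^ (-Ew)) := by
  obtain ⟨κ, hκc, hκi, hκd, hκr⟩ := inf_repro_ker n R₀
  obtain ⟨C₀, hC₀, hdec⟩ := hκd (max Ew 0 / P)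
  have hA : 0 ≤ max Ew 0 / P := div_nonneg (le_max_right _ _) hP.le
  have hAP : max Ew 0 / P * P = max Ew 0 := div_mul_cancel₀ _ hP.ne'
  refine ⟨C₀ * (1 + |r|) ^ (max Ew 0), by positivity, ?_⟩
  intro g z y hg hy
  have h1 := inf_C3_max hA hC₀ hP hP1 hdec (hκr g hg) (inf_ext_continuous hg) (inf_ext_bound hg) z y
  rw [hAP] at h1
  have h2 : infC3W (max Ew 0) (y - z) ≤ ENNReal.ofReal ((1 + |r|) ^ (max Ew 0)) :=
    ENNReal.ofReal_le_ofReal (Real.rpow_le_rpow (by positivity) (by linarith [le_abs_self r]) (le_max_right _ _))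
  have h3 : ∫⁻ w, ‖ext g w‖ₑ ^ P * infC3W (-(max Ew 0)) (w - z) ≤ ∫⁻ w, ‖ext g w‖ₑ ^ P * ENNReal.ofReal ((1 + ‖w - z‖) ^ (-Ew)) :=
    lintegral_mono fun w => mul_le_mul_right (inf_C2_wt Ew (w - z)) _
  calc ‖ext g y‖ₑ ^ P ≤ ENNReal.ofReal C₀ * (∫⁻ w, ‖ext g w‖ₑ ^ P * infC3W (-(max Ew 0)) (w - z)) * infC3W (max Ew 0) (y - z) := h1
    _ ≤ ENNReal.ofReal C₀ * (∫⁻ w, ‖ext g w‖ₑ ^ P * ENNReal.ofReal ((1 + ‖w - z‖) ^ (-Ew))) * ENNReal.ofReal ((1 + |r|) ^ (max Ew 0)) :=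
        mul_le_mul' (mul_le_mul_right h3 _) h2
    _ = _ := by
        rw [ENNReal.ofReal_mul hC₀]
        ring

/-- the locally constant property, every exponent -/
theorem inf_lc_all (n : ℕ) (R₀ P Ew r : ℝ) (hP : 0 < P) : ∃ C : ℝ, 0 ≤ C ∧ ∀ (g : E n → ℂ) (z y : ST n), Dat R₀ g → ‖y - z‖ ≤ r →
    ‖ext g y‖ₑ ^ P ≤ ENNReal.ofReal C * ∫⁻ w, ‖ext g w‖ₑ ^ P * ENNReal.ofReal ((1 + ‖w - z‖) ^ (-Ew)) := by
  rcases lt_or_ge P 1 with h | h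
  · exact inf_lc_lt_one n R₀ P Ew r hP h
  · exact inf_lc_ge_one n R₀ P Ew r h

/-- **the contract `LcStmt` of `Sp/Defs.lean`** -/
theorem inf_lc (n : ℕ) : LcStmt n := by
  intro R₀ P Ew r hP
  obtain ⟨C, -, h⟩ := inf_lc_ge_one n R₀ P Ew r hP
  refine ⟨C, fun g z y hg hy => (h g z y hg hy).trans (le_of_eq ?_)⟩
  unfold spLoc spW
  simp only [div_one]

/-- L-INF-C4 (~120 l.).  **Suprema over unit cubes**, every exponent (`inf_lc_all` with `r = √n + 1`, `inf_cube_subset_ball`): for EVERY point `z` of the cube. -/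
theorem inf_lc_cube (n : ℕ) (R₀ P Ew : ℝ) (hP : 0 < P) : ∃ C : ℝ, 0 ≤ C ∧ ∀ (g : E n → ℂ) (k : (Fin n → ℤ) × ℤ) (z : ST n), Dat R₀ g → z ∈ cube k →
    (⨆ y ∈ cube k, ‖ext g y‖ₑ) ^ P ≤ ENNReal.ofReal C * ∫⁻ h, ‖ext g (z + h)‖ₑ ^ P * ENNReal.ofReal ((1 + ‖h‖) ^ (-Ew)) := by
  obtain ⟨C, hC, h⟩ := inf_lc_all n R₀ P Ew (Real.sqrt n + 1) hP
  refine ⟨C, hC, fun g k z hg hz => ?_⟩
  have hh : (volume : Measure (ST n)).IsAddHaarMeasure := by rw [Measure.volume_eq_prod]; infer_instance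
  have e : ∫⁻ h, ‖ext g (z + h)‖ₑ ^ P * ENNReal.ofReal ((1 + ‖h‖) ^ (-Ew)) =
      ∫⁻ w, ‖ext g w‖ₑ ^ P * ENNReal.ofReal ((1 + ‖w - z‖) ^ (-Ew)) := by
    rw [← lintegral_add_left_eq_self (fun w => ‖ext g w‖ₑ ^ P * ENNReal.ofReal ((1 + ‖w - z‖) ^ (-Ew))) z]
    simp only [add_sub_cancel_left]
  rw [e, ← ENNReal.le_rpow_inv_iff hP]
  refine iSup₂_le fun y hy => ?_
  rw [ENNReal.le_rpow_inv_iff hP]
  refine h g z y hg ?_
  have := inf_cube_subset_ball k hz hy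
  rwa [mem_closedBall, dist_eq_norm] at this

end Claimed.Agent.R257
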