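import Claimed.Agent.R257.Infra.Defs

/-!
# R257 / Infra / Alg : unit U0 = EXACT IDENTITIES AND COVERINGS        (captain of INFRA: helper53; plan: report 853 sec. D, U0)

Paper H: fractal.tex l.19-100 (`d:measure`, `d:array-sup`, `d:parabolic-map`).      PAPER-FREE: every statement is elementary.
* carriers: `inf_car_*`;   exact fields: `inf_ext_*` (translation = modulation of the data, cap rescaling, sup bound, continuity);
* `pmap H v` = the parabolic map `X_{H,v}(x,t) = ((x - 2vt)/H, t/H²)`,   `Arr.resc A H v` = the array in these coordinates (scale `L/H`, frequencies `H(ω - v)`, intercepts `y/H`, SAME profiles, SAME coefficients);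
* measures: push forward of growth / slab / tube moments under `pmap`, tube moments with `D = 1` from growth, graph measures.
Every `sorry` is a LEAF `L-INF-A*` (name in the docstring).  Statements frozen (tell helper53 at once if one looks false or awkward); prove IN PLACE, helper lemmas directly above your theorem, prefix `inf_<leaf>_`.
-/

set_option autoImplicit false

namespace Claimed.Agent.R257

open MeasureTheory Metric Set
open scoped ENNReal ContDiff InnerProductSpace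

variable {n : ℕ} {ι : Type}

/-! ## 1. Carriers      (leaf L-INF-A1: all of this section, ~150 l.) -/

/-- L-INF-A1 (`Complex.norm_exp`, the exponent is purely imaginary) -/
theorem inf_car_norm (w : E n) (z : ST n) : ‖car w z‖ = 1 := by
  unfold car
  rw [mul_comm]
  exact Complex.norm_exp_ofReal_mul_I _

/-- L-INF-A1 -/
theorem inf_car_add (w : E n) (z z' : ST n) : car w (z + z') = car w z * car w z' := by
  unfold car
  rw [← Complex.exp_add, ← mul_add, ← Complex.ofReal_add]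
  congr 3
  simp only [Prod.fst_add, Prod.snd_add, inner_add_left]
  ring

/-- L-INF-A1 -/
theorem inf_car_zero (w : E n) : car w 0 = 1 := by
  simp [car]

/-- L-INF-A1 -/
theorem inf_car_neg (w : E n) (z : ST n) : car w (-z) = (starRingEnd ℂ) (car w z) := by
  unfold car
  rw [← Complex.exp_conj, map_mul, Complex.conj_I, Complex.conj_ofReal]
  congr 1
  simp only [Prod.fst_neg, Prod.snd_neg, inner_neg_left]
  push_cast
  ring

/-- L-INF-A1 -/
theorem inf_car_continuous : Continuous fun p : E n × ST n => car p.1 p.2 := by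
  unfold car
  fun_prop

/-- the parabolic map `X_{H,v}` (H (d:parabolic-map), (p:native)) -/
noncomputable def pmap (H : ℝ) (v : E n) (z : ST n) : ST n := (H⁻¹ • (z.1 - (2 * z.2) • v), z.2 / H ^ 2)

/-- L-INF-A1.  Galilean covariance of the carriers. -/
theorem inf_car_shift (v η : E n) (q : ℝ) (z : ST n) :
    car (v + q • η) z = car v z * car η (q • (z.1 - (2 * z.2) • v), q ^ 2 * z.2) := by
  unfold car
  rw [← Complex.exp_add, ← mul_add, ← Complex.ofReal_add]
  congr 3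
  simp only [norm_add_sq_real, inner_add_right, inner_smul_right, inner_smul_left, inner_sub_left,
    norm_smul, mul_pow, Real.norm_eq_abs, sq_abs, RCLike.conj_to_real]
  ring

/-- L-INF-A1 (`inf_car_shift` with `q = H⁻¹`) -/
theorem inf_car_pmap (v η : E n) (H : ℝ) (z : ST n) : car (v + H⁻¹ • η) z = car v z * car η (pmap H v z) := by
  rw [inf_car_shift, pmap, inv_pow, div_eq_inv_mul]

/-- L-INF-A1.  The phase identity of the layers (H d:layers): `(ζ, σ) = chart L ω y 0 z`. -/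
theorem inf_car_chart (w y η : E n) {L : ℝ} (hL : L ≠ 0) (z : ST n) :
    car w z * Complex.exp (Complex.I * ((⟪(chart L w y 0 z).1, η⟫_ℝ - (chart L w y 0 z).2 * ‖η‖ ^ 2 : ℝ) : ℂ))
      = car (w + L⁻¹ • η) z * Complex.exp (-Complex.I * ((⟪y, η⟫_ℝ / L : ℝ) : ℂ)) := by
  unfold car chart
  rw [← Complex.exp_add, ← Complex.exp_add, neg_mul, ← sub_eq_add_neg, ← mul_add, ← mul_sub,
    ← Complex.ofReal_add, ← Complex.ofReal_sub]
  congr 3
  simp only [norm_add_sq_real, inner_add_right, inner_smul_right, inner_smul_left, inner_sub_left,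
    norm_smul, mul_pow, Real.norm_eq_abs, sq_abs, RCLike.conj_to_real, norm_inv, inv_pow]
  field_simp
  ring

/-- L-INF-A1 -/
theorem inf_pmap_continuous (H : ℝ) (v : E n) : Continuous (pmap H v) := by
  unfold pmap
  fun_prop

/-- L-INF-A1.  `pmap` is a bijection; its inverse. -/
theorem inf_pmap_inv {H : ℝ} (hH : H ≠ 0) (v : E n) (z : ST n) :
    pmap H v (H • z.1 + (2 * (H ^ 2 * z.2)) • v, H ^ 2 * z.2) = z := by
  unfold pmap
  refine Prod.ext ?_ ?_
  · simp only [add_sub_cancel_right, smul_smul, inv_mul_cancel₀ hH, one_smul]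
  · simp only
    field_simp

/-- L-INF-A1 -/
theorem inf_pmap_injective {H : ℝ} (hH : H ≠ 0) (v : E n) : Function.Injective (pmap H v) := by
  intro z z' h
  have h1 : z.2 = z'.2 := by
    have := congrArg Prod.snd h
    simp only [pmap] at this
    field_simp at this
    exact this
  have h2 : z.1 = z'.1 := by
    have := congrArg Prod.fst h
    simp only [pmap, h1] at this
    have h3 := smul_right_injective (E n) (inv_ne_zero hH) this
    exact sub_left_injective h3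
  exact Prod.ext h2 h1

/-! ## 2. Exact fields      (leaves L-INF-A2, L-INF-A3) -/

theorem inf_A2_car_cont (z : ST n) : Continuous fun ξ : E n => car ξ z :=
  inf_car_continuous.comp (continuous_id.prodMk continuous_const)

theorem inf_A2_supp {R₀ : ℝ} {g : E n → ℂ} (hg : Dat R₀ g) : Function.support g ⊆ closedBall (0 : E n) R₀ := by
  intro ξ hξ
  rw [mem_closedBall_zero_iff]
  exact hg.supp ξ hξ

theorem inf_A2_integrable {R₀ : ℝ} {g : E n → ℂ} (hg : Dat R₀ g) : Integrable g := by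
  rw [← integrableOn_iff_integrable_of_support_subset (inf_A2_supp hg)]
  have : IsFiniteMeasure (volume.restrict (closedBall (0 : E n) R₀)) :=
    ⟨by rw [Measure.restrict_apply_univ]; exact measure_closedBall_lt_top⟩
  have h1 : MemLp g 2 (volume.restrict (closedBall (0 : E n) R₀)) := hg.l2.restrict _
  exact memLp_one_iff_integrable.1 (h1.mono_exponent (by norm_num))

/-- L-INF-A2 (~40 l.).  `car ξ z * g ξ` is integrable. -/
theorem inf_ext_integrable {R₀ : ℝ} {g : E n → ℂ} (hg : Dat R₀ g) (z : ST n) : Integrable fun ξ => car ξ z * g ξ :=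
  (inf_A2_integrable hg).bdd_mul (c := 1) (inf_A2_car_cont z).aestronglyMeasurable
    (Filter.Eventually.of_forall fun ξ => (inf_car_norm ξ z).le)

/-- L-INF-A2 (~30 l.).  data are integrable (Cauchy-Schwarz on the ball) -/
theorem inf_dat_integrable {R₀ : ℝ} {g : E n → ℂ} (hg : Dat R₀ g) : Integrable g :=
  inf_A2_integrable hg

/-- L-INF-A2 (~20 l.).  translation of the field = modulation of the data (no hypothesis on `g`) -/
theorem inf_ext_translate (g : E n → ℂ) (z w : ST n) : ext g (z + w) = ext (fun ξ => car ξ w * g ξ) z := by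
  unfold ext
  refine integral_congr_ae (Filter.Eventually.of_forall fun ξ => ?_)
  simp only [inf_car_add]
  ring

/-- L-INF-A2 (~30 l.) -/
theorem inf_dat_modulate {R₀ : ℝ} {g : E n → ℂ} (hg : Dat R₀ g) (w : ST n) : Dat R₀ fun ξ => car ξ w * g ξ where
  meas := (inf_A2_car_cont w).measurable.mul hg.meas
  supp := fun ξ hξ => hg.supp ξ (right_ne_zero_of_mul hξ)
  l2 := hg.l2.congr_norm ((inf_A2_car_cont w).measurable.mul hg.meas).aestronglyMeasurable
    (Filter.Eventually.of_forall fun ξ => by rw [norm_mul, inf_car_norm, one_mul])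

/-- L-INF-A2 (~20 l.) -/
theorem inf_norm_modulate (g : E n → ℂ) (w : ST n) : eLpNorm (fun ξ => car ξ w * g ξ) 2 volume = eLpNorm g 2 volume :=
  eLpNorm_congr_norm_ae (Filter.Eventually.of_forall fun ξ => by rw [norm_mul, inf_car_norm, one_mul])

/-- L-INF-A2 (~80 l.).  Cauchy-Schwarz on the ball. -/
theorem inf_ext_bound {R₀ : ℝ} {g : E n → ℂ} (hg : Dat R₀ g) (z : ST n) :
    ‖ext g z‖ ≤ Real.sqrt (volume (closedBall (0 : E n) R₀)).toReal * (eLpNorm g 2 volume).toReal := by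
  have h1 : ‖ext g z‖ ≤ ∫ ξ, ‖g ξ‖ := by
    refine (norm_integral_le_integral_norm _).trans (le_of_eq ?_)
    refine integral_congr_ae (Filter.Eventually.of_forall fun ξ => ?_)
    simp only [norm_mul, inf_car_norm, one_mul]
  have h2 : ∫ ξ, ‖g ξ‖ = (eLpNorm g 1 volume).toReal := by
    rw [integral_norm_eq_lintegral_enorm hg.meas.aestronglyMeasurable, eLpNorm_one_eq_lintegral_enorm]
  have h3 : eLpNorm g 1 volume ≤ eLpNorm g 2 volume * volume (closedBall (0 : E n) R₀) ^ ((1 : ℝ) / 2) := by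
    rw [← eLpNorm_restrict_eq_of_support_subset (inf_A2_supp hg)]
    refine (eLpNorm_le_eLpNorm_mul_rpow_measure_univ (p := 1) (q := 2) (by norm_num)
      hg.meas.aestronglyMeasurable).trans ?_
    rw [Measure.restrict_apply_univ]
    have e : (1 : ℝ) / (1 : ℝ≥0∞).toReal - 1 / (2 : ℝ≥0∞).toReal = 1 / 2 := by norm_num
    rw [e]
    exact mul_le_mul_left (eLpNorm_restrict_le g 2 volume _) _
  have hfin : eLpNorm g 2 volume * volume (closedBall (0 : E n) R₀) ^ ((1 : ℝ) / 2) ≠ (⊤ : ℝ≥0∞) :=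
    ENNReal.mul_ne_top hg.l2.eLpNorm_ne_top
      (ENNReal.rpow_ne_top_of_nonneg (by norm_num) measure_closedBall_lt_top.ne)
  have h4 := ENNReal.toReal_mono hfin h3
  rw [ENNReal.toReal_mul, ← ENNReal.toReal_rpow, ← Real.sqrt_eq_rpow] at h4
  rw [h2] at h1
  linarith

/-- L-INF-A2 (~50 l.).  dominated convergence -/
theorem inf_ext_continuous {R₀ : ℝ} {g : E n → ℂ} (hg : Dat R₀ g) : Continuous (ext g) := by
  unfold ext
  refine continuous_of_dominated (bound := fun ξ => ‖g ξ‖)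
    (fun z => (inf_ext_integrable hg z).aestronglyMeasurable)
    (fun z => Filter.Eventually.of_forall fun ξ => by rw [norm_mul, inf_car_norm, one_mul])
    (inf_dat_integrable hg).norm (Filter.Eventually.of_forall fun ξ => ?_)
  exact (inf_car_continuous.comp (continuous_const.prodMk continuous_id)).mul continuous_const

/-- the data of a cap `B(v₀, q R)` in the coordinates of the cap, `L²` normalised -/
noncomputable def capD (q : ℝ) (v₀ : E n) (g : E n → ℂ) (η : E n) : ℂ := ((q ^ ((n : ℝ) / 2) : ℝ) : ℂ) * g (v₀ + q • η)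

/-- L-INF-A3 (~120 l.).  **Cap rescaling** (`ξ = v₀ + q η`, `Measure.integral_comp_smul`, `integral_add_left_eq_self`, `inf_car_shift`; no hypothesis on `g`). -/
theorem inf_ext_rescale (g : E n → ℂ) (v₀ : E n) {q : ℝ} (hq : 0 < q) (z : ST n) :
    ext g z = ((q ^ ((n : ℝ) / 2) : ℝ) : ℂ) * car v₀ z * ext (capD q v₀ g) (q • (z.1 - (2 * z.2) • v₀), q ^ 2 * z.2) := by
  unfold ext
  have h1 : ∀ η : E n, car η (q • (z.1 - (2 * z.2) • v₀), q ^ 2 * z.2) * capD q v₀ g η * car v₀ z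
      = ((q ^ ((n : ℝ) / 2) : ℝ) : ℂ) * (fun x => car (v₀ + x) z * g (v₀ + x)) (q • η) := by
    intro η
    simp only [capD, inf_car_shift]
    ring
  have h2 : ∫ η : E n, (fun x => car (v₀ + x) z * g (v₀ + x)) (q • η)
      = ((q ^ n)⁻¹ : ℝ) • ∫ ξ, car ξ z * g ξ := by
    rw [Measure.integral_comp_smul volume (fun x => car (v₀ + x) z * g (v₀ + x)) q,
      finrank_euclideanSpace_fin, abs_of_pos (by positivity),
      integral_add_left_eq_self (fun ξ => car ξ z * g ξ) v₀]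
  have h3 : ((q ^ ((n : ℝ) / 2) : ℝ) : ℂ) * ((q ^ ((n : ℝ) / 2) : ℝ) : ℂ) = ((q ^ n : ℝ) : ℂ) := by
    rw [← Complex.ofReal_mul, ← Real.rpow_add hq, add_halves, Real.rpow_natCast]
  calc ∫ ξ, car ξ z * g ξ
      = ((q ^ n : ℝ) : ℂ) * (((q ^ n)⁻¹ : ℝ) • ∫ ξ, car ξ z * g ξ) := by
        rw [Complex.real_smul, ← mul_assoc, ← Complex.ofReal_mul, mul_inv_cancel₀ (by positivity),
          Complex.ofReal_one, one_mul]
    _ = ((q ^ ((n : ℝ) / 2) : ℝ) : ℂ) * ∫ η : E n, ((q ^ ((n : ℝ) / 2) : ℝ) : ℂ)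
          * (fun x => car (v₀ + x) z * g (v₀ + x)) (q • η) := by
        rw [integral_const_mul, ← h2, ← mul_assoc, h3]
    _ = ((q ^ ((n : ℝ) / 2) : ℝ) : ℂ) * ∫ η : E n,
          car η (q • (z.1 - (2 * z.2) • v₀), q ^ 2 * z.2) * capD q v₀ g η * car v₀ z := by
        simp only [h1]
    _ = _ := by
        rw [integral_mul_const]
        ring

theorem inf_A3_emb (v₀ : E n) {q : ℝ} (hq : 0 < q) : MeasurableEmbedding fun η : E n => v₀ + q • η :=
  ((Homeomorph.addLeft v₀).measurableEmbedding).comp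
    ((Homeomorph.smulOfNeZero q hq.ne').measurableEmbedding)

theorem inf_A3_map (v₀ : E n) {q : ℝ} (hq : 0 < q) :
    Measure.map (fun η : E n => v₀ + q • η) volume = ENNReal.ofReal ((q ^ n)⁻¹) • (volume : Measure (E n)) := by
  have h1 : (fun η : E n => v₀ + q • η) = (fun x => v₀ + x) ∘ fun η => q • η := rfl
  rw [h1, ← Measure.map_map (measurable_const_add v₀) (measurable_const_smul q),
    Measure.map_addHaar_smul volume hq.ne', finrank_euclideanSpace_fin, abs_of_pos (by positivity),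
    Measure.map_smul, map_add_left_eq_self]

/-- L-INF-A3 (~80 l.) -/
theorem inf_capD_norm (g : E n → ℂ) (v₀ : E n) {q : ℝ} (hq : 0 < q) : eLpNorm (capD q v₀ g) 2 volume = eLpNorm g 2 volume := by
  have h1 : capD q v₀ g = ((q ^ ((n : ℝ) / 2) : ℝ) : ℂ) • (g ∘ fun η : E n => v₀ + q • η) := by
    funext η
    simp [capD]
  rw [h1, eLpNorm_const_smul, ← (inf_A3_emb v₀ hq).eLpNorm_map_measure, inf_A3_map v₀ hq,
    eLpNorm_smul_measure_of_ne_top (by norm_num), smul_eq_mul, ← mul_assoc]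
  have h2 : ‖((q ^ ((n : ℝ) / 2) : ℝ) : ℂ)‖ₑ * ENNReal.ofReal ((q ^ n)⁻¹) ^ (1 / (2 : ℝ≥0∞)).toReal = 1 := by
    have e1 : ‖((q ^ ((n : ℝ) / 2) : ℝ) : ℂ)‖ₑ = ENNReal.ofReal (q ^ ((n : ℝ) / 2)) := by
      rw [← ofReal_norm, Complex.norm_real, Real.norm_of_nonneg (by positivity)]
    have e2 : (1 / (2 : ℝ≥0∞)).toReal = 1 / 2 := by
      rw [ENNReal.toReal_div]; norm_num
    rw [e1, e2, ENNReal.ofReal_rpow_of_pos (by positivity), ← ENNReal.ofReal_mul (by positivity),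
      ← Real.rpow_natCast, ← Real.rpow_neg hq.le, ← Real.rpow_mul hq.le, ← Real.rpow_add hq]
    have : (n : ℝ) / 2 + -(n : ℝ) * (1 / 2) = 0 := by ring
    rw [this, Real.rpow_zero, ENNReal.ofReal_one]
  rw [h2, one_mul]

/-- L-INF-A3 (~60 l.) -/
theorem inf_capD_dat {R₀ R : ℝ} {g : E n → ℂ} (hg : Dat R₀ g) (v₀ : E n) {q : ℝ} (hq : 0 < q) (hs : ∀ ξ, g ξ ≠ 0 → ‖ξ - v₀‖ ≤ q * R) :
    Dat R (capD q v₀ g) := by
  have hm : Measurable (capD q v₀ g) :=
    measurable_const.mul (hg.meas.comp (inf_A3_emb v₀ hq).measurable)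
  refine ⟨hm, fun η hη => ?_, hm.aestronglyMeasurable, ?_⟩
  · have h1 := hs _ (right_ne_zero_of_mul hη)
    rw [add_sub_cancel_left, norm_smul, Real.norm_of_nonneg hq.le] at h1
    exact le_of_mul_le_mul_left h1 hq
  · rw [inf_capD_norm g v₀ hq]
    exact hg.l2.eLpNorm_lt_top

/-! ## 3. Arrays in parabolic coordinates      (leaves L-INF-A4, L-INF-A5) -/

/-- the array in the coordinates `X_{H,v}`: scale `L/H`, frequencies `H (ω - v)`, intercepts `y/H`, same native time centres, same profiles -/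
noncomputable def Arr.resc (A : Arr n ι) (H : ℝ) (v : E n) : Arr n ι where
  L := A.L / H
  om α := H • (A.om α - v)
  y α := H⁻¹ • A.y α
  tc := A.tc
  pf := A.pf

theorem inf_A4_vec {H : ℝ} (hH : H ≠ 0) (w y v x : E n) (t : ℝ) :
    H⁻¹ • (x - (2 * t) • v) - H⁻¹ • y - (2 * (t / H ^ 2)) • H • (w - v) = H⁻¹ • (x - y - (2 * t) • w) := by
  have e : (2 * (t / H ^ 2)) • H • (w - v) = H⁻¹ • ((2 * t) • (w - v)) := by
    rw [smul_smul, smul_smul]
    congr 1
    field_simp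
  rw [e, ← smul_sub, ← smul_sub]
  congr 1
  module

/-- L-INF-A4 (~40 l.).  native coordinates are invariant -/
theorem inf_chart_resc {L H : ℝ} (hL : L ≠ 0) (hH : H ≠ 0) (w y v : E n) (τ : ℝ) (z : ST n) :
    chart (L / H) (H • (w - v)) (H⁻¹ • y) τ (pmap H v z) = chart L w y τ z := by
  unfold chart pmap
  refine Prod.ext ?_ ?_
  · simp only
    rw [inf_A4_vec hH, smul_smul]
    congr 1
    field_simp
  · simp only
    field_simp

/-- L-INF-A4 (~80 l.).  **Covariance of the atoms** (H l.88-100). -/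
theorem inf_atom_resc (A : Arr n ι) (hL : 0 < A.L) {H : ℝ} (hH : 0 < H) (v : E n) (α : ι) (z : ST n) :
    A.atom α z = ((H ^ (-(n : ℝ) / 2) : ℝ) : ℂ) * car v z * (A.resc H v).atom α (pmap H v z) := by
  unfold Arr.atom
  simp only [Arr.resc]
  rw [inf_chart_resc hL.ne' hH.ne']
  have h1 : car (A.om α) z = car v z * car (H • (A.om α - v)) (pmap H v z) := by
    rw [← inf_car_pmap, smul_smul, inv_mul_cancel₀ hH.ne', one_smul, add_sub_cancel]
  have h2 : ((A.L ^ (-(n : ℝ) / 2) : ℝ) : ℂ)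
      = ((H ^ (-(n : ℝ) / 2) : ℝ) : ℂ) * (((A.L / H) ^ (-(n : ℝ) / 2) : ℝ) : ℂ) := by
    rw [← Complex.ofReal_mul, ← Real.mul_rpow hH.le (div_pos hL hH).le, mul_div_cancel₀ _ hH.ne']
  rw [h1, h2]
  ring

/-- L-INF-A4 (~20 l.) -/
theorem inf_fld_resc (A : Arr n ι) (hL : 0 < A.L) {H : ℝ} (hH : 0 < H) (v : E n) (s : Finset ι) (c : ι → ℂ) (z : ST n) :
    A.fld s c z = ((H ^ (-(n : ℝ) / 2) : ℝ) : ℂ) * car v z * (A.resc H v).fld s c (pmap H v z) := by
  unfold Arr.fld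
  rw [Finset.mul_sum]
  refine Finset.sum_congr rfl fun α _ => ?_
  rw [inf_atom_resc A hL hH v α z]
  ring

/-- L-INF-A4 (~20 l.) -/
theorem inf_fld_resc_norm (A : Arr n ι) (hL : 0 < A.L) {H : ℝ} (hH : 0 < H) (v : E n) (s : Finset ι) (c : ι → ℂ) (z : ST n) :
    ‖A.fld s c z‖ = H ^ (-(n : ℝ) / 2) * ‖(A.resc H v).fld s c (pmap H v z)‖ := by
  rw [inf_fld_resc A hL hH v s c z, norm_mul, norm_mul, inf_car_norm, mul_one, Complex.norm_real,
    Real.norm_of_nonneg (by positivity)]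

/-- L-INF-A4 (~40 l.) -/
theorem inf_tdist_resc (A : Arr n ι) {H : ℝ} (hH : 0 < H) (v : E n) (α : ι) (z : ST n) :
    (A.resc H v).tdist α (pmap H v z) = A.tdist α z / H := by
  unfold Arr.tdist
  simp only [Arr.resc, pmap]
  rw [inf_A4_vec hH.ne', norm_smul, norm_inv, Real.norm_of_nonneg hH.le, div_eq_inv_mul]

/-- L-INF-A4 (~30 l.).  the labels are sheared: `(a, b, σ) ↦ (a - L v, b - 2 σ L v, σ)` -/
theorem inf_lab_resc (A : Arr n ι) {H : ℝ} (hH : H ≠ 0) (v : E n) (α : ι) :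
    (A.resc H v).lab α = ((A.lab α).1 - A.L • v, (A.lab α).2.1 - (2 * A.tc α * A.L) • v, (A.lab α).2.2) := by
  unfold Arr.lab
  simp only [Arr.resc]
  have e1 : A.L / H * H = A.L := div_mul_cancel₀ _ hH
  have e2 : (A.L / H)⁻¹ * H⁻¹ = A.L⁻¹ := by
    rw [inv_div, div_mul_eq_mul_div, mul_inv_cancel₀ hH, one_div]
  have e3 : 2 * A.tc α * (A.L / H) * H = 2 * A.tc α * A.L := by rw [mul_assoc, e1]
  refine Prod.ext ?_ (Prod.ext ?_ rfl)
  · simp only
    rw [smul_smul, e1, smul_sub]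
  · simp only
    rw [smul_smul, smul_smul, e2, e3, smul_sub]
    abel

theorem inf_A5_pre {A : Arr n ι} {s : Finset ι} {K : Cls} (hA : A.In s K) {H ρ : ℝ} (hH : 0 < H) (hHL : H ≤ A.L)
    (v : E n) (hv : ∀ α ∈ s, ‖A.om α - v‖ ≤ ρ / H) :
    1 ≤ (A.resc H v).L ∧ (∀ α ∈ s, Prof K.J K.R K.B ((A.resc H v).pf α)) ∧ ∀ α ∈ s, ‖(A.resc H v).om α‖ ≤ ρ := by
  refine ⟨?_, hA.prof, fun α hα => ?_⟩
  · show 1 ≤ A.L / H
    rwa [one_le_div hH]
  · show ‖H • (A.om α - v)‖ ≤ ρ
    rw [norm_smul, Real.norm_of_nonneg hH.le]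
    have := hv α hα
    rwa [le_div_iff₀ hH, mul_comm] at this

theorem inf_A5_card {A : Arr n ι} {s : Finset ι} {K : Cls} (hA : A.In s K) {H : ℝ} (hH : 0 < H) (v : E n)
    (ξ y : E n) (τ : ℝ) (t : Finset ι) (hts : t ⊆ s)
    (ht : ∀ α ∈ t, ‖(A.resc H v).L • (A.resc H v).om α - ξ‖ ≤ 1 ∧ |(A.resc H v).tc α - τ| ≤ 1 ∧
      ‖(A.resc H v).L⁻¹ • (A.resc H v).y α + (2 * τ * (A.resc H v).L) • (A.resc H v).om α - y‖ ≤ 1) :
    t.card ≤ K.m₀ := by
  have hL : 0 < A.L := lt_of_lt_of_le one_pos hA.one_le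
  refine hA.mult (ξ + A.L • v) (y + (2 * τ * A.L) • v) τ t hts fun α hα => ?_
  obtain ⟨h1, h2, h3⟩ := ht α hα
  simp only [Arr.resc] at h1 h2 h3
  refine ⟨?_, h2, ?_⟩
  · have e : A.L • A.om α - (ξ + A.L • v) = (A.L / H) • H • (A.om α - v) - ξ := by
      rw [smul_smul, div_mul_cancel₀ _ hH.ne', smul_sub]
      abel
    rw [e]
    exact h1
  · have e : A.L⁻¹ • A.y α + (2 * τ * A.L) • A.om α - (y + (2 * τ * A.L) • v)
        = (A.L / H)⁻¹ • H⁻¹ • A.y α + (2 * τ * (A.L / H)) • H • (A.om α - v) - y := by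
      rw [smul_smul, smul_smul]
      have e1 : (A.L / H)⁻¹ * H⁻¹ = A.L⁻¹ := by
        field_simp
      have e2 : 2 * τ * (A.L / H) * H = 2 * τ * A.L := by
        field_simp
      rw [e1, e2, smul_sub]
      abel
    rw [e]
    exact h3

/-- L-INF-A5 (~100 l.).  **The class is preserved** (arrays with `tc = 0`: the labels are translated).  `ρ` = radius of the frequency region in the new coordinates. -/
theorem inf_in_resc {A : Arr n ι} {s : Finset ι} {K : Cls} (hA : A.In s K) (h0 : ∀ α ∈ s, A.tc α = 0) {H ρ : ℝ} (hH : 0 < H) (hHL : H ≤ A.L)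
    (v : E n) (hv : ∀ α ∈ s, ‖A.om α - v‖ ≤ ρ / H) : (A.resc H v).In s { K with Rω := ρ } := by
  obtain ⟨h1, h2, h3⟩ := inf_A5_pre hA hH hHL v hv
  exact ⟨h1, h2, h3, fun ξ y τ t hts ht => inf_A5_card hA hH v ξ y τ t hts ht⟩

/-- L-INF-A5 (~120 l.).  The same for INTEGER native time centres: the multiplicity is multiplied by `3` (a closed unit ball of the label space sees at most three integers `σ`; for fixed `σ` the labels are translated). -/
theorem inf_in_resc_int {A : Arr n ι} {s : Finset ι} {K : Cls} (hA : A.In s K) (h0 : ∀ α ∈ s, ∃ k : ℤ, A.tc α = k) {H ρ : ℝ} (hH : 0 < H) (hHL : H ≤ A.L)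
    (v : E n) (hv : ∀ α ∈ s, ‖A.om α - v‖ ≤ ρ / H) : (A.resc H v).In s { K with Rω := ρ, m₀ := 3 * K.m₀ } := by
  obtain ⟨h1, h2, h3⟩ := inf_A5_pre hA hH hHL v hv
  refine ⟨h1, h2, h3, fun ξ y τ t hts ht => ?_⟩
  show t.card ≤ 3 * K.m₀
  have := inf_A5_card hA hH v ξ y τ t hts ht
  omega

/-- L-INF-A5 (~15 l.).  subarrays and larger classes -/
theorem inf_in_mono {A : Arr n ι} {s t : Finset ι} {K K' : Cls} (hA : A.In s K) (hts : t ⊆ s) (hJ : K'.J ≤ K.J) (hR : K.R ≤ K'.R) (hB : K.B ≤ K'.B)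
    (hω : K.Rω ≤ K'.Rω) (hm : K.m₀ ≤ K'.m₀) : A.In t K' where
  one_le := hA.one_le
  prof := fun α hα => ⟨(hA.prof α (hts hα)).smooth, fun z hz => ((hA.prof α (hts hα)).supp z hz).trans hR,
    fun j hj z => ((hA.prof α (hts hα)).bound j (hj.trans hJ) z).trans hB⟩
  freq := fun α hα => (hA.freq α (hts hα)).trans hω
  mult := fun ξ y τ u hu h => (hA.mult ξ y τ u (hu.trans hts) h).trans hm

/-! ## 4. Measures      (leaves L-INF-A6 .. L-INF-A9) -/

/-- counting bound for a finite cover -/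
theorem inf_A6_count {X κ : Type*} [MeasurableSpace X] (μ : Measure X) (S : Set X) (I : Finset κ) (B : κ → Set X) (b : ℝ≥0∞)
    (hS : S ⊆ ⋃ i ∈ I, B i) (hB : ∀ i ∈ I, μ (B i) ≤ b) : μ S ≤ I.card * b := by
  calc μ S ≤ μ (⋃ i ∈ I, B i) := measure_mono hS
    _ ≤ ∑ i ∈ I, μ (B i) := measure_biUnion_finset_le _ _
    _ ≤ ∑ _i ∈ I, b := Finset.sum_le_sum hB
    _ = I.card * b := by rw [Finset.sum_const, nsmul_eq_mul]

theorem inf_A6_cut_aux (h : ℝ) (K : ℕ) (hK : 1 ≤ K) : ∀ a t : ℝ, a ≤ t → t ≤ a + 2 * h * K →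
    ∃ i ∈ Finset.range K, |t - (a + (2 * i + 1) * h)| ≤ h := by
  induction K, hK using Nat.le_induction with
  | base =>
    intro a t h1 h2
    refine ⟨0, by simp, ?_⟩
    rw [abs_le]
    push_cast at h2 ⊢
    constructor <;> linarith
  | succ K hK ih =>
    intro a t h1 h2
    by_cases hc : t ≤ a + 2 * h * K
    · obtain ⟨i, hi, hit⟩ := ih a t h1 hc
      exact ⟨i, Finset.mem_range.2 ((Finset.mem_range.1 hi).trans (Nat.lt_succ_self K)), hit⟩
    · refine ⟨K, Finset.mem_range.2 (Nat.lt_succ_self K), ?_⟩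
      rw [abs_le]
      push_cast at h2
      constructor <;> linarith

/-- an interval of half length `K h` is covered by `K` intervals of half length `h` -/
theorem inf_A6_cut (c h : ℝ) (K : ℕ) (hK : 1 ≤ K) (t : ℝ) (ht : |t - c| ≤ K * h) :
    ∃ i ∈ Finset.range K, |t - (c - K * h + (2 * i + 1) * h)| ≤ h := by
  rw [abs_le] at ht
  exact inf_A6_cut_aux h K hK (c - K * h) t (by linarith) (by linarith)

/-- the preimage of a ball under the parabolic map -/
theorem inf_A6_pre {H : ℝ} (hH : 0 < H) (v : E n) (z' : ST n) (r : ℝ) (z : ST n) (hz : pmap H v z ∈ closedBall z' r) :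
    |z.2 - H ^ 2 * z'.2| ≤ r * H ^ 2 ∧ ‖z.1 - (2 * z.2) • v - H • z'.1‖ ≤ r * H := by
  rw [mem_closedBall, Prod.dist_eq, max_le_iff] at hz
  obtain ⟨h1, h2⟩ := hz
  constructor
  · have e : z.2 - H ^ 2 * z'.2 = H ^ 2 * (z.2 / H ^ 2 - z'.2) := by field_simp
    rw [e, abs_mul, abs_of_pos (by positivity : 0 < H ^ 2), mul_comm]
    rw [Real.dist_eq] at h2
    exact mul_le_mul_of_nonneg_right h2 (by positivity)
  · have e : z.1 - (2 * z.2) • v - H • z'.1 = H • (H⁻¹ • (z.1 - (2 * z.2) • v) - z'.1) := by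
      rw [smul_sub, smul_smul, mul_inv_cancel₀ hH.ne', one_smul]
    rw [e, norm_smul, Real.norm_eq_abs, abs_of_pos hH, mul_comm]
    rw [dist_eq_norm] at h1
    exact mul_le_mul_of_nonneg_right h1 hH.le

/-- on a short time interval the sheared slab is almost straight -/
theorem inf_A6_piece (v x₀ : E n) (τ h ρ Rv : ℝ) (hv : ‖v‖ ≤ Rv) (z : ST n) (h1 : |z.2 - τ| ≤ h)
    (h2 : ‖z.1 - (2 * z.2) • v - x₀‖ ≤ ρ) : ‖z.1 - (x₀ + (2 * τ) • v)‖ ≤ ρ + 2 * h * Rv := by
  have e : z.1 - (x₀ + (2 * τ) • v) = (z.1 - (2 * z.2) • v - x₀) + (2 * (z.2 - τ)) • v := by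
    rw [mul_sub, sub_smul]; abel
  rw [e]
  refine (norm_add_le _ _).trans (add_le_add h2 ?_)
  rw [norm_smul, Real.norm_eq_abs, abs_mul, abs_two]
  have h0 : 0 ≤ h := (abs_nonneg _).trans h1
  calc 2 * |z.2 - τ| * ‖v‖ ≤ 2 * h * Rv :=
    mul_le_mul (by linarith) hv (norm_nonneg _) (by positivity)

/-- L-INF-A6 (~200 l.).  **Growth in parabolic coordinates** (H l.88-100, wall.tex l.60).   The preimage of `closedBall z' r` is `{|t - t₀| ≤ r H², |x - 2tv - x₀| ≤ r H}`: cut the time interval into `⌈H⌉₊` pieces of length `≤ 2 r H`;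
each piece lies in a closed ball (sup metric) of radius `(1 + 2 Rv) H r ≥ 1`;  `⌈H⌉₊ ≤ 2 H`. -/
theorem inf_grow_push {μ : Measure (ST n)} {m a Rv H : ℝ} (hμ : Grow μ m a) (hm : 0 ≤ m) (ha : 0 ≤ a) (hH : 1 ≤ H) {v : E n} (hv : ‖v‖ ≤ Rv) :
    Grow (μ.map (pmap H v)) (2 * (1 + 2 * Rv) ^ a * m * H ^ (a + 1)) a := by
  intro z' r hr
  have hH0 : 0 < H := zero_lt_one.trans_le hH
  have hr0 : 0 < r := zero_lt_one.trans_le hr
  have hRv : 0 ≤ Rv := (norm_nonneg _).trans hv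
  rw [Measure.map_apply (inf_pmap_continuous H v).measurable measurableSet_closedBall]
  set K : ℕ := ⌈H⌉₊ with hK
  have hK1 : 1 ≤ K := Nat.one_le_iff_ne_zero.2 (Nat.ceil_pos.2 hH0).ne'
  have hKH : H ≤ K := Nat.le_ceil H
  have hK2 : (K : ℝ) ≤ 2 * H := by linarith [(Nat.ceil_lt_add_one hH0.le).le]
  have hK0 : (0 : ℝ) < K := hH0.trans_le hKH
  set h : ℝ := r * H ^ 2 / K with hh
  have hKh : K * h = r * H ^ 2 := by rw [hh]; field_simp
  have hh0 : 0 ≤ h := by rw [hh]; positivity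
  have hhle : h ≤ r * H := by
    rw [hh, div_le_iff₀ hK0]
    nlinarith [mul_pos hr0 hH0]
  set τ : ℕ → ℝ := fun i => H ^ 2 * z'.2 - K * h + (2 * i + 1) * h with hτ
  set ρ' : ℝ := (1 + 2 * Rv) * H * r with hρ'
  have hρ1 : 1 ≤ ρ' := by
    rw [hρ']
    have h1 : 1 ≤ (1 + 2 * Rv) * H := by nlinarith
    nlinarith
  have hcount := inf_A6_count μ (pmap H v ⁻¹' closedBall z' r) (Finset.range K)
    (fun i => closedBall ((H • z'.1 + (2 * τ i) • v, τ i) : ST n) ρ') (ENNReal.ofReal (m * ρ' ^ a))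
    (by
      intro z hz
      obtain ⟨h1, h2⟩ := inf_A6_pre hH0 v z' r z hz
      obtain ⟨i, hi, hit⟩ := inf_A6_cut (H ^ 2 * z'.2) h K hK1 z.2 (by rw [hKh]; exact h1)
      refine mem_biUnion hi ?_
      rw [mem_closedBall, Prod.dist_eq, max_le_iff]
      constructor
      · rw [dist_eq_norm]
        refine (inf_A6_piece v (H • z'.1) (τ i) h (r * H) Rv hv z hit h2).trans ?_
        rw [hρ']
        nlinarith
      · rw [Real.dist_eq]
        refine hit.trans (hhle.trans ?_)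
        rw [hρ']
        nlinarith [mul_pos hr0 hH0])
    (fun i _ => hμ _ ρ' hρ1)
  refine hcount.trans ?_
  rw [Finset.card_range, ← ENNReal.ofReal_natCast, ← ENNReal.ofReal_mul (Nat.cast_nonneg K)]
  refine ENNReal.ofReal_le_ofReal ?_
  have e1 : ρ' ^ a = (1 + 2 * Rv) ^ a * H ^ a * r ^ a := by
    rw [hρ', Real.mul_rpow (by positivity) hr0.le, Real.mul_rpow (by positivity) hH0.le]
  have e2 : H ^ (a + 1) = H ^ a * H := by rw [Real.rpow_add hH0, Real.rpow_one]
  rw [e1, e2]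
  have p1 : 0 ≤ (1 + 2 * Rv) ^ a := Real.rpow_nonneg (by positivity) _
  have p2 : 0 ≤ H ^ a := Real.rpow_nonneg hH0.le _
  have p3 : 0 ≤ r ^ a := Real.rpow_nonneg hr0.le _
  calc (K : ℝ) * (m * ((1 + 2 * Rv) ^ a * H ^ a * r ^ a)) ≤ (2 * H) * (m * ((1 + 2 * Rv) ^ a * H ^ a * r ^ a)) :=
        mul_le_mul_of_nonneg_right hK2 (by positivity)
    _ = 2 * (1 + 2 * Rv) ^ a * m * (H ^ a * H) * r ^ a := by ring

/-- L-INF-A6 (~30 l.) -/
theorem inf_slab_push {μ : Measure (ST n)} {T H : ℝ} (hμ : Slab μ T) (hH : 0 < H) (v : E n) : Slab (μ.map (pmap H v)) (T / H ^ 2) := by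
  unfold Slab at hμ ⊢
  have hm : MeasurableSet {z : ST n | T / H ^ 2 < |z.2|} := (isOpen_lt continuous_const continuous_snd.abs).measurableSet
  rw [Measure.map_apply (inf_pmap_continuous H v).measurable hm]
  have : pmap H v ⁻¹' {z : ST n | T / H ^ 2 < |z.2|} = {z | T < |z.2|} := by
    ext z
    simp only [mem_preimage, mem_ofPred_eq, pmap]
    rw [abs_div, abs_of_pos (by positivity : 0 < H ^ 2), div_lt_div_iff_of_pos_right (by positivity)]
  rw [this]
  exact hμ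

/-- a Euclidean ball of radius `ρ` is covered by `(ρ √n + 2)^n` closed unit balls -/
theorem inf_A6_ball_cover (n : ℕ) (ρ : ℝ) (hρ : 0 ≤ ρ) (c : E n) :
    ∃ F : Finset (E n), (F.card : ℝ) ≤ (ρ * Real.sqrt n + 2) ^ n ∧ closedBall c ρ ⊆ ⋃ p ∈ F, closedBall p 1 := by
  classical
  set M : ℕ := ⌈ρ * Real.sqrt n⌉₊ + 1 with hM
  have hM1 : 1 ≤ M := by omega
  have hM0 : (0 : ℝ) < M := by exact_mod_cast hM1
  have hsq : 0 ≤ ρ * Real.sqrt n := by positivity
  have hMle : (M : ℝ) ≤ ρ * Real.sqrt n + 2 := by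
    rw [hM]; push_cast
    linarith [(Nat.ceil_lt_add_one hsq).le]
  have hMge : ρ * Real.sqrt n ≤ M := by
    rw [hM]; push_cast
    linarith [Nat.le_ceil (ρ * Real.sqrt n)]
  set h : ℝ := ρ / M with hh
  have hMh : M * h = ρ := by rw [hh]; field_simp
  have hh0 : 0 ≤ h := by rw [hh]; positivity
  have hhn : (n : ℝ) * h ^ 2 ≤ 1 := by
    have h1 : h * Real.sqrt n ≤ 1 := by
      rw [hh, div_mul_eq_mul_div, div_le_one hM0]
      exact hMge
    have h2 : (h * Real.sqrt n) ^ 2 ≤ 1 := pow_le_one₀ (by positivity) h1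
    rw [mul_pow, Real.sq_sqrt (Nat.cast_nonneg n)] at h2
    linarith
  set φ : (Fin n → ℕ) → E n := fun idx => WithLp.toLp 2 fun k => c k - M * h + (2 * (idx k : ℝ) + 1) * h with hφ
  refine ⟨(Fintype.piFinset fun _ : Fin n => Finset.range M).image φ, ?_, ?_⟩
  · have h1 : ((Fintype.piFinset fun _ : Fin n => Finset.range M).image φ).card ≤ M ^ n := by
      refine Finset.card_image_le.trans (le_of_eq ?_)
      simp [Fintype.card_piFinset]
    calc _ ≤ ((M ^ n : ℕ) : ℝ) := by exact_mod_cast h1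
      _ = (M : ℝ) ^ n := by push_cast; rfl
      _ ≤ _ := pow_le_pow_left₀ hM0.le hMle n
  · intro x hx
    rw [mem_closedBall, dist_eq_norm] at hx
    have hk : ∀ k : Fin n, ∃ i ∈ Finset.range M, |x k - (c k - M * h + (2 * (i : ℝ) + 1) * h)| ≤ h := by
      intro k
      refine inf_A6_cut (c k) h M hM1 (x k) ?_
      rw [hMh]
      have := PiLp.norm_apply_le (x - c) k
      rw [Real.norm_eq_abs] at this
      exact this.trans hx
    choose idx hidx hclose using hk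
    refine mem_biUnion (Finset.mem_image_of_mem φ (Fintype.mem_piFinset.2 fun k => hidx k)) ?_
    rw [mem_closedBall, EuclideanSpace.dist_eq]
    rw [show (1 : ℝ) = Real.sqrt 1 by simp]
    refine Real.sqrt_le_sqrt ?_
    calc ∑ k, dist (x k) (φ idx k) ^ 2 ≤ ∑ _k : Fin n, h ^ 2 := by
          refine Finset.sum_le_sum fun k _ => ?_
          rw [Real.dist_eq]
          exact pow_le_pow_left₀ (abs_nonneg _) (hclose k) 2
      _ = n * h ^ 2 := by simp
      _ ≤ 1 := hhn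

/-- L-INF-A6 (~250 l.).  **Unit density in parabolic coordinates** (wall.tex l.60: "unit density `min(1, C χ R)`"; the `1` is `inf_grow_push` at `r = 1`).   The preimage of a closed unit ball is
`{|t - t₀| ≤ H², |x - 2tv - x₀| ≤ H}`: `≤ 2 H² ` unit time intervals, on each the `x`-section lies in a ball of radius `H + 2 Rv`, covered by `≤ C (H + 2 Rv + 1)^n` closed unit balls. -/
theorem inf_dens_push (n : ℕ) (Rv : ℝ) : ∃ C : ℝ, 0 ≤ C ∧ ∀ (μ : Measure (ST n)) (m χ H : ℝ) (v : E n), Dens μ m χ → 0 ≤ m → 0 ≤ χ → 1 ≤ H → ‖v‖ ≤ Rv →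
    Dens (μ.map (pmap H v)) (C * m * H ^ ((n : ℝ) + 1)) (χ * H) := by
  refine ⟨2 * ((1 + 2 * |Rv|) * Real.sqrt n + 2) ^ n, by positivity, ?_⟩
  intro μ m χ H v hμ hm hχ hH hv z'
  have hH0 : 0 < H := zero_lt_one.trans_le hH
  have hRv : 0 ≤ Rv := (norm_nonneg _).trans hv
  rw [abs_of_nonneg hRv]
  rw [Measure.map_apply (inf_pmap_continuous H v).measurable measurableSet_closedBall]
  set K : ℕ := ⌈H ^ 2⌉₊ with hK
  have hH2 : 1 ≤ H ^ 2 := one_le_pow₀ hH
  have hK1 : 1 ≤ K := Nat.one_le_iff_ne_zero.2 (Nat.ceil_pos.2 (by positivity)).ne'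
  have hKH : H ^ 2 ≤ K := Nat.le_ceil _
  have hK2 : (K : ℝ) ≤ 2 * H ^ 2 := by linarith [(Nat.ceil_lt_add_one (by positivity : 0 ≤ H ^ 2)).le]
  have hK0 : (0 : ℝ) < K := by linarith
  set h : ℝ := H ^ 2 / K with hh
  have hKh : K * h = H ^ 2 := by rw [hh]; field_simp
  have hh0 : 0 ≤ h := by rw [hh]; positivity
  have hh1 : h ≤ 1 := by rw [hh, div_le_one hK0]; exact hKH
  set τ : ℕ → ℝ := fun i => H ^ 2 * z'.2 - K * h + (2 * i + 1) * h with hτ
  set ρ : ℝ := H + 2 * Rv with hρ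
  have hρ0 : 0 ≤ ρ := by rw [hρ]; positivity
  set b : ℝ≥0∞ := ENNReal.ofReal (m * χ) with hb
  set A : ℝ := (ρ * Real.sqrt n + 2) ^ n with hA
  have hA0 : 0 ≤ A := by rw [hA]; positivity
  -- one time piece
  have hpiece : ∀ i, μ {z : ST n | |z.2 - τ i| ≤ h ∧ ‖z.1 - (H • z'.1 + (2 * τ i) • v)‖ ≤ ρ} ≤ ENNReal.ofReal A * b := by
    intro i
    obtain ⟨F, hF1, hF2⟩ := inf_A6_ball_cover n ρ hρ0 (H • z'.1 + (2 * τ i) • v)
    have h1 := inf_A6_count μ {z : ST n | |z.2 - τ i| ≤ h ∧ ‖z.1 - (H • z'.1 + (2 * τ i) • v)‖ ≤ ρ} F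
      (fun p => closedBall ((p, τ i) : ST n) 1) b
      (by
        rintro z ⟨hz1, hz2⟩
        have hz3 : z.1 ∈ closedBall (H • z'.1 + (2 * τ i) • v) ρ := by rw [mem_closedBall, dist_eq_norm]; exact hz2
        obtain ⟨p, hp, hzp⟩ := mem_iUnion₂.1 (hF2 hz3)
        refine mem_biUnion hp ?_
        rw [mem_closedBall, Prod.dist_eq, max_le_iff]
        exact ⟨mem_closedBall.1 hzp, by rw [Real.dist_eq]; exact hz1.trans hh1⟩)
      (fun p _ => hμ _)
    refine h1.trans ?_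
    gcongr
    rw [← ENNReal.ofReal_natCast]
    exact ENNReal.ofReal_le_ofReal hF1
  have hcount := inf_A6_count μ (pmap H v ⁻¹' closedBall z' 1) (Finset.range K)
    (fun i => {z : ST n | |z.2 - τ i| ≤ h ∧ ‖z.1 - (H • z'.1 + (2 * τ i) • v)‖ ≤ ρ}) (ENNReal.ofReal A * b)
    (by
      intro z hz
      obtain ⟨h1, h2⟩ := inf_A6_pre hH0 v z' 1 z hz
      rw [one_mul] at h1 h2
      obtain ⟨i, hi, hit⟩ := inf_A6_cut (H ^ 2 * z'.2) h K hK1 z.2 (by rw [hKh]; exact h1)
      refine mem_biUnion hi ⟨hit, ?_⟩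
      refine (inf_A6_piece v (H • z'.1) (τ i) h H Rv hv z hit h2).trans ?_
      rw [hρ]
      nlinarith)
    (fun i _ => hpiece i)
  refine hcount.trans ?_
  rw [Finset.card_range, hb, ← ENNReal.ofReal_natCast, ← ENNReal.ofReal_mul hA0, ← ENNReal.ofReal_mul (Nat.cast_nonneg K)]
  refine ENNReal.ofReal_le_ofReal ?_
  have e2 : H ^ ((n : ℝ) + 1) = H ^ n * H := by rw [Real.rpow_add hH0, Real.rpow_one, Real.rpow_natCast]
  rw [e2]
  have hsn : 0 ≤ Real.sqrt n := Real.sqrt_nonneg _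
  have hAle : A ≤ H ^ n * ((1 + 2 * Rv) * Real.sqrt n + 2) ^ n := by
    rw [hA, ← mul_pow]
    refine pow_le_pow_left₀ (by positivity) ?_ n
    rw [hρ]
    have h1 : H + 2 * Rv ≤ H * (1 + 2 * Rv) := by nlinarith
    nlinarith [mul_le_mul_of_nonneg_right h1 hsn]
  have hmχ : 0 ≤ m * χ := mul_nonneg hm hχ
  calc (K : ℝ) * (A * (m * χ)) ≤ (2 * H ^ 2) * ((H ^ n * ((1 + 2 * Rv) * Real.sqrt n + 2) ^ n) * (m * χ)) :=
        mul_le_mul hK2 (mul_le_mul_of_nonneg_right hAle hmχ) (by positivity) (by positivity)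
    _ = 2 * ((1 + 2 * Rv) * Real.sqrt n + 2) ^ n * m * (H ^ n * H) * (χ * H) := by ring

/-- L-INF-A7 (~80 l.).  **Tube moments are invariant** (`lintegral_map`, `inf_tdist_resc`): `m L^{n+1} = (m H^{n+1}) (L/H)^{n+1}`. -/
theorem inf_tubeMom_push {μ : Measure (ST n)} {A : Arr n ι} {s : Finset ι} {m D : ℝ} {M : ℕ} (h : TubeMom μ A s m D M) (hL : 0 < A.L) {H : ℝ} (hH : 0 < H) (v : E n) :
    TubeMom (μ.map (pmap H v)) (A.resc H v) s (m * H ^ ((n : ℝ) + 1)) D M := by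
  intro α hα
  have hmeas : Measurable fun z : ST n =>
      ENNReal.ofReal ((1 + (A.resc H v).tdist α z / (A.resc H v).L) ^ (-(M : ℤ))) := by
    have hc : Continuous fun z : ST n => (A.resc H v).tdist α z := by
      unfold Arr.tdist
      fun_prop
    have h1 : Measurable fun z : ST n => 1 + (A.resc H v).tdist α z / (A.resc H v).L :=
      (continuous_const.add (hc.div_const _)).measurable
    refine ENNReal.measurable_ofReal.comp ?_
    simp only [zpow_neg, zpow_natCast]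
    exact (h1.pow_const M).inv
  rw [lintegral_map hmeas (inf_pmap_continuous H v).measurable]
  have hLr : (A.resc H v).L = A.L / H := rfl
  have e1 : ∀ z : ST n, (A.resc H v).tdist α (pmap H v z) / (A.resc H v).L = A.tdist α z / A.L := by
    intro z
    rw [inf_tdist_resc A hH v α z, hLr]
    field_simp
  have e2 : m * H ^ ((n : ℝ) + 1) * (A.resc H v).L ^ ((n : ℝ) + 1) / D = m * A.L ^ ((n : ℝ) + 1) / D := by
    rw [hLr, Real.div_rpow hL.le hH.le]
    have hp : 0 < H ^ ((n : ℝ) + 1) := Real.rpow_pos_of_pos hH _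
    field_simp
  simp only [e1]
  rw [e2]
  exact h α hα

/-- the mass of a tube of radius `r ≥ L` in the slab `|t| ≤ T L²`. -/
theorem inf_A8_tube {μ : Measure (ST n)} {m T L r Rω : ℝ} (hμ : Grow μ m n) (hm : 0 ≤ m)
    (hs : Slab μ (T * L ^ 2)) (hT : 0 ≤ T) (hL : 1 ≤ L) (hr : L ≤ r) {w : E n} (hw : ‖w‖ ≤ Rω) (y : E n) :
    μ {z | ‖z.1 - y - (2 * z.2) • w‖ ≤ r} ≤ ENNReal.ofReal ((T + 2) * L * (m * ((1 + 2 * Rω) * r) ^ n)) := by
  have hL0 : 0 < L := lt_of_lt_of_le one_pos hL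
  have hr0 : 0 < r := lt_of_lt_of_le hL0 hr
  have hR : 0 ≤ Rω := (norm_nonneg w).trans hw
  set K : ℕ := ⌈T * L ^ 2 / r⌉₊ + 1 with hK
  set ρ : ℝ := (1 + 2 * Rω) * r with hρ
  have hρr : r ≤ ρ := by
    rw [hρ]; nlinarith
  have hρ1 : 1 ≤ ρ := (hL.trans hr).trans hρr
  let tj : ℕ → ℝ := fun j => -(T * L ^ 2) + (2 * (j : ℝ) + 1) * r
  let c : ℕ → ST n := fun j => (y + (2 * tj j) • w, tj j)
  have hsub : {z : ST n | ‖z.1 - y - (2 * z.2) • w‖ ≤ r} ⊆
      {z : ST n | T * L ^ 2 < |z.2|} ∪ ⋃ j ∈ Finset.range K, closedBall (c j) ρ := by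
    intro z hz
    by_cases hzt : T * L ^ 2 < |z.2|
    · exact Or.inl hzt
    · right
      rw [not_lt, abs_le] at hzt
      have hu : 0 ≤ (z.2 + T * L ^ 2) / (2 * r) := div_nonneg (by linarith [hzt.1]) (by positivity)
      set j : ℕ := ⌊(z.2 + T * L ^ 2) / (2 * r)⌋₊ with hj
      have hj1 : (j : ℝ) ≤ (z.2 + T * L ^ 2) / (2 * r) := Nat.floor_le hu
      have hj2 : (z.2 + T * L ^ 2) / (2 * r) < j + 1 := Nat.lt_floor_add_one _
      rw [le_div_iff₀ (by positivity)] at hj1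
      rw [div_lt_iff₀ (by positivity)] at hj2
      have hjK : j < K := by
        have h1 : (j : ℝ) ≤ T * L ^ 2 / r := by
          rw [le_div_iff₀ hr0]
          nlinarith [hzt.2]
        have h2 : (j : ℝ) ≤ (⌈T * L ^ 2 / r⌉₊ : ℝ) := h1.trans (Nat.le_ceil _)
        have h3 : j ≤ ⌈T * L ^ 2 / r⌉₊ := by exact_mod_cast h2
        omega
      have ht : |z.2 - tj j| ≤ r := by
        rw [abs_le]
        constructor <;> simp only [tj] <;> nlinarith
      refine mem_biUnion (Finset.mem_coe.2 (Finset.mem_range.2 hjK)) ?_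
      rw [mem_closedBall, Prod.dist_eq, max_le_iff]
      constructor
      · rw [dist_eq_norm]
        have e : z.1 - (c j).1 = (z.1 - y - (2 * z.2) • w) + (2 * (z.2 - tj j)) • w := by
          simp only [c]
          module
        rw [e]
        have h1 : ‖(2 * (z.2 - tj j)) • w‖ ≤ 2 * r * Rω := by
          rw [norm_smul, Real.norm_eq_abs, abs_mul, abs_two]
          have := mul_le_mul ht hw (norm_nonneg w) hr0.le
          nlinarith
        have h2 := norm_add_le (z.1 - y - (2 * z.2) • w) ((2 * (z.2 - tj j)) • w)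
        have hz' : ‖z.1 - y - (2 * z.2) • w‖ ≤ r := hz
        rw [hρ]
        nlinarith
      · rw [Real.dist_eq]
        exact ht.trans hρr
  have hball : ∀ j, μ (closedBall (c j) ρ) ≤ ENNReal.ofReal (m * ρ ^ n) := by
    intro j
    have := hμ (c j) ρ hρ1
    rwa [Real.rpow_natCast] at this
  have hKle : (K : ℝ) ≤ (T + 2) * L := by
    have h1 : (⌈T * L ^ 2 / r⌉₊ : ℝ) < T * L ^ 2 / r + 1 := Nat.ceil_lt_add_one (by positivity)
    have h2 : T * L ^ 2 / r ≤ T * L := by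
      rw [div_le_iff₀ hr0]
      nlinarith [mul_nonneg hT hL0.le]
    rw [hK]
    push_cast
    nlinarith
  calc μ {z | ‖z.1 - y - (2 * z.2) • w‖ ≤ r}
      ≤ μ ({z : ST n | T * L ^ 2 < |z.2|} ∪ ⋃ j ∈ Finset.range K, closedBall (c j) ρ) := measure_mono hsub
    _ ≤ μ {z : ST n | T * L ^ 2 < |z.2|} + μ (⋃ j ∈ Finset.range K, closedBall (c j) ρ) := measure_union_le _ _
    _ = μ (⋃ j ∈ Finset.range K, closedBall (c j) ρ) := by rw [show μ {z : ST n | T * L ^ 2 < |z.2|} = 0 from hs, zero_add]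
    _ ≤ ∑ j ∈ Finset.range K, μ (closedBall (c j) ρ) := measure_biUnion_finset_le _ _
    _ ≤ ∑ _j ∈ Finset.range K, ENNReal.ofReal (m * ρ ^ n) := Finset.sum_le_sum fun j _ => hball j
    _ = ENNReal.ofReal ((K : ℝ) * (m * ρ ^ n)) := by
        rw [Finset.sum_const, Finset.card_range, nsmul_eq_mul, ENNReal.ofReal_mul (Nat.cast_nonneg K),
          ENNReal.ofReal_natCast]
    _ ≤ ENNReal.ofReal ((T + 2) * L * (m * ρ ^ n)) := by
        refine ENNReal.ofReal_le_ofReal (mul_le_mul_of_nonneg_right hKle ?_)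
        positivity

theorem inf_A8_cont (y w : E n) : Continuous fun z : ST n => ‖z.1 - y - (2 * z.2) • w‖ := by
  fun_prop

/-- the far part of a tube moment, explicit constant. -/
theorem inf_A8_far {μ : Measure (ST n)} {m T L Rω Λ : ℝ} (e : ℕ) (hμ : Grow μ m n) (hm : 0 ≤ m)
    (hs : Slab μ (T * L ^ 2)) (hT : 0 ≤ T) (hL : 1 ≤ L) (hΛ : 1 ≤ Λ) {w : E n} (hw : ‖w‖ ≤ Rω) (y : E n) :
    ∫⁻ z in {z | Λ * L < ‖z.1 - y - (2 * z.2) • w‖},
        ENNReal.ofReal ((1 + ‖z.1 - y - (2 * z.2) • w‖ / L) ^ (-((n + 2 + e : ℕ) : ℤ))) ∂μ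
      ≤ ENNReal.ofReal ((T + 2) * (2 * (1 + 2 * Rω)) ^ n * m * L ^ (n + 1) * (Λ ^ (e + 1))⁻¹ * 2) := by
  have hL0 : 0 < L := lt_of_lt_of_le one_pos hL
  have hΛ0 : 0 < Λ := lt_of_lt_of_le one_pos hΛ
  have hR : 0 ≤ Rω := (norm_nonneg w).trans hw
  set td : ST n → ℝ := fun z => ‖z.1 - y - (2 * z.2) • w‖ with htd
  have hcont : Continuous td := inf_A8_cont y w
  set B : ℝ := (T + 2) * (2 * (1 + 2 * Rω)) ^ n * m * L ^ (n + 1) * (Λ ^ (e + 1))⁻¹ with hB
  have hB0 : 0 ≤ B := by positivity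
  let S : ℕ → Set (ST n) := fun a => {z | 2 ^ a * (Λ * L) ≤ td z ∧ td z ≤ 2 ^ (a + 1) * (Λ * L)}
  have hSm : ∀ a, MeasurableSet (S a) := fun a =>
    (measurableSet_le measurable_const hcont.measurable).inter
      (measurableSet_le hcont.measurable measurable_const)
  have hcov : {z | Λ * L < td z} ⊆ ⋃ a, S a := by
    intro z hz
    have hz' : Λ * L < td z := hz
    have hx : 1 ≤ td z / (Λ * L) := by
      rw [le_div_iff₀ (by positivity)]
      linarith
    obtain ⟨a, h1, h2⟩ := exists_nat_pow_near hx one_lt_two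
    rw [le_div_iff₀ (by positivity)] at h1
    rw [div_lt_iff₀ (by positivity)] at h2
    exact mem_iUnion.2 ⟨a, h1, h2.le⟩
  have hterm : ∀ a, ∫⁻ z in S a, ENNReal.ofReal ((1 + td z / L) ^ (-((n + 2 + e : ℕ) : ℤ))) ∂μ
      ≤ ENNReal.ofReal (B * (1 / 2) ^ a) := by
    intro a
    obtain ⟨u, hu⟩ : ∃ u : ℝ, u = 2 ^ a * Λ := ⟨_, rfl⟩
    have h2a : (1 : ℝ) ≤ 2 ^ a := one_le_pow₀ one_le_two
    have hu0 : 0 < u := by rw [hu]; positivity
    have huΛ : Λ ≤ u := by rw [hu]; nlinarith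
    have hu2 : (2 : ℝ) ^ a ≤ u := by rw [hu]; nlinarith
    have h1 : ∀ z ∈ S a, ENNReal.ofReal ((1 + td z / L) ^ (-((n + 2 + e : ℕ) : ℤ)))
        ≤ ENNReal.ofReal ((u ^ (n + 2 + e))⁻¹) := by
      intro z hz
      refine ENNReal.ofReal_le_ofReal ?_
      rw [zpow_neg, zpow_natCast]
      have h3 : u ≤ 1 + td z / L := by
        have : u ≤ td z / L := by
          rw [le_div_iff₀ hL0, hu, mul_assoc]
          exact hz.1
        linarith
      exact inv_anti₀ (by positivity) (pow_le_pow_left₀ hu0.le h3 _)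
    have h2 : μ (S a) ≤ ENNReal.ofReal ((T + 2) * L * (m * ((1 + 2 * Rω) * (2 ^ (a + 1) * (Λ * L))) ^ n)) := by
      refine (measure_mono fun z hz => ?_).trans
        (inf_A8_tube hμ hm hs hT hL (r := 2 ^ (a + 1) * (Λ * L)) ?_ hw y)
      · exact hz.2
      · have : (1 : ℝ) ≤ 2 ^ (a + 1) := one_le_pow₀ one_le_two
        nlinarith [mul_le_mul hΛ hL zero_le_one hΛ0.le]
    calc ∫⁻ z in S a, ENNReal.ofReal ((1 + td z / L) ^ (-((n + 2 + e : ℕ) : ℤ))) ∂μ
        ≤ ∫⁻ _z in S a, ENNReal.ofReal ((u ^ (n + 2 + e))⁻¹) ∂μ := setLIntegral_mono' (hSm a) h1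
      _ = ENNReal.ofReal ((u ^ (n + 2 + e))⁻¹) * μ (S a) := setLIntegral_const _ _
      _ ≤ ENNReal.ofReal ((u ^ (n + 2 + e))⁻¹)
          * ENNReal.ofReal ((T + 2) * L * (m * ((1 + 2 * Rω) * (2 ^ (a + 1) * (Λ * L))) ^ n)) := by gcongr
      _ = ENNReal.ofReal ((u ^ (n + 2 + e))⁻¹
          * ((T + 2) * L * (m * ((1 + 2 * Rω) * (2 ^ (a + 1) * (Λ * L))) ^ n))) :=
          (ENNReal.ofReal_mul (by positivity)).symm
      _ ≤ ENNReal.ofReal (B * (1 / 2) ^ a) := by
          refine ENNReal.ofReal_le_ofReal ?_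
          have e1 : (1 + 2 * Rω) * (2 ^ (a + 1) * (Λ * L)) = (2 * (1 + 2 * Rω)) * u * L := by
            rw [hu, pow_succ]; ring
          have e2 : (u ^ (n + 2 + e))⁻¹ * ((T + 2) * L * (m * ((2 * (1 + 2 * Rω)) * u * L) ^ n))
              = (T + 2) * (2 * (1 + 2 * Rω)) ^ n * m * L ^ (n + 1) * (u ^ (e + 2))⁻¹ := by
            rw [mul_pow, mul_pow, show n + 2 + e = n + (e + 2) by ring, pow_add u n, pow_succ L n]
            field_simp
          rw [e1, e2, hB]
          have e3 : (u ^ (e + 2))⁻¹ ≤ (Λ ^ (e + 1))⁻¹ * (1 / 2) ^ a := by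
            rw [one_div, inv_pow, ← mul_inv]
            refine inv_anti₀ (by positivity) ?_
            rw [pow_succ u (e + 1)]
            exact mul_le_mul (pow_le_pow_left₀ hΛ0.le huΛ _) hu2 (by positivity) (by positivity)
          calc (T + 2) * (2 * (1 + 2 * Rω)) ^ n * m * L ^ (n + 1) * (u ^ (e + 2))⁻¹
              ≤ (T + 2) * (2 * (1 + 2 * Rω)) ^ n * m * L ^ (n + 1) * ((Λ ^ (e + 1))⁻¹ * (1 / 2) ^ a) :=
                mul_le_mul_of_nonneg_left e3 (by positivity)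
            _ = _ := by ring
  have hsum : Summable fun a : ℕ => B * (1 / 2 : ℝ) ^ a := summable_geometric_two.mul_left B
  calc ∫⁻ z in {z | Λ * L < td z}, ENNReal.ofReal ((1 + td z / L) ^ (-((n + 2 + e : ℕ) : ℤ))) ∂μ
      ≤ ∫⁻ z in ⋃ a, S a, ENNReal.ofReal ((1 + td z / L) ^ (-((n + 2 + e : ℕ) : ℤ))) ∂μ :=
        lintegral_mono_set hcov
    _ ≤ ∑' a, ∫⁻ z in S a, ENNReal.ofReal ((1 + td z / L) ^ (-((n + 2 + e : ℕ) : ℤ))) ∂μ :=
        lintegral_iUnion_le _ _
    _ ≤ ∑' a, ENNReal.ofReal (B * (1 / 2) ^ a) := ENNReal.tsum_le_tsum hterm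
    _ = ENNReal.ofReal (∑' a : ℕ, B * (1 / 2 : ℝ) ^ a) :=
        (ENNReal.ofReal_tsum_of_nonneg (fun a => by positivity) hsum).symm
    _ = ENNReal.ofReal (B * 2) := by rw [tsum_mul_left, tsum_geometric_two]

theorem inf_A8_rpow (L : ℝ) : L ^ ((n : ℝ) + 1) = L ^ (n + 1) := by
  rw [← Real.rpow_natCast]
  push_cast
  rfl

/-- L-INF-A8 (~300 l.).  **Tube moments with `D = 1` from growth** (H l.76-84).   Annuli `2^{a-1} L < tdist ≤ 2^a L` (and `tdist ≤ L`), `r = 2^a L`: cut `|t| ≤ T₀ L²` into `≤ T₀ L + 1` intervals of length `≤ 2r`;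
each piece of the tube lies in a closed ball of radius `(1 + 2 Rω) r`;  mass `≤ (T₀ L + 1) m ((1 + 2Rω) r)^n`;  `∑_a 2^{a n - (a-1) M} < ∞`. -/
theorem inf_tubeMom_of_grow (n M : ℕ) (hM : n + 2 ≤ M) (T₀ Rω : ℝ) : ∃ C : ℝ, 0 ≤ C ∧ ∀ (ι : Type) (μ : Measure (ST n)) (A : Arr n ι) (s : Finset ι) (m : ℝ), 0 ≤ m →
    Grow μ m n → Slab μ (T₀ * A.L ^ 2) → 1 ≤ A.L → (∀ α ∈ s, ‖A.om α‖ ≤ Rω) → TubeMom μ A s (C * m) 1 M := by
  obtain ⟨e, rfl⟩ := Nat.exists_eq_add_of_le hM
  refine ⟨(|T₀| + 2) * (1 + 2 * |Rω|) ^ n + (|T₀| + 2) * (2 * (1 + 2 * |Rω|)) ^ n * 2, by positivity, ?_⟩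
  intro ι μ A s m hm hμ hs hL hw α hα
  have hL0 : 0 < A.L := lt_of_lt_of_le one_pos hL
  have hs' : Slab μ (|T₀| * A.L ^ 2) := measure_mono_null (fun z hz =>
    lt_of_le_of_lt (mul_le_mul_of_nonneg_right (le_abs_self T₀) (sq_nonneg _)) hz) hs
  have hw' : ‖A.om α‖ ≤ |Rω| := (hw α hα).trans (le_abs_self _)
  have hcont : Continuous fun z => A.tdist α z := inf_A8_cont (A.y α) (A.om α)
  have hmeas : MeasurableSet {z | A.tdist α z ≤ A.L} := measurableSet_le hcont.measurable measurable_const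
  have hcompl : {z | A.tdist α z ≤ A.L}ᶜ = {z | 1 * A.L < A.tdist α z} := by
    ext z
    simp [not_le]
  have h1 : ∫⁻ z in {z | A.tdist α z ≤ A.L}, ENNReal.ofReal ((1 + A.tdist α z / A.L) ^ (-((n + 2 + e : ℕ) : ℤ))) ∂μ
      ≤ ENNReal.ofReal ((|T₀| + 2) * A.L * (m * ((1 + 2 * |Rω|) * A.L) ^ n)) := by
    calc ∫⁻ z in {z | A.tdist α z ≤ A.L}, ENNReal.ofReal ((1 + A.tdist α z / A.L) ^ (-((n + 2 + e : ℕ) : ℤ))) ∂μ
        ≤ ∫⁻ _z in {z | A.tdist α z ≤ A.L}, 1 ∂μ := by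
          refine lintegral_mono fun z => ?_
          rw [← ENNReal.ofReal_one]
          refine ENNReal.ofReal_le_ofReal ?_
          rw [zpow_neg, zpow_natCast]
          have h0 : 0 ≤ A.tdist α z / A.L := div_nonneg (norm_nonneg _) hL0.le
          exact inv_le_one_of_one_le₀ (one_le_pow₀ (by linarith))
      _ = μ {z | A.tdist α z ≤ A.L} := by rw [setLIntegral_const, one_mul]
      _ ≤ _ := inf_A8_tube hμ hm hs' (abs_nonneg T₀) hL le_rfl hw' (A.y α)
  have h2 := inf_A8_far e hμ hm hs' (abs_nonneg T₀) hL le_rfl hw' (A.y α)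
  rw [← lintegral_add_compl _ hmeas, hcompl]
  refine (add_le_add h1 h2).trans ?_
  rw [← ENNReal.ofReal_add (by positivity) (by positivity)]
  refine ENNReal.ofReal_le_ofReal (le_of_eq ?_)
  rw [one_pow, inf_A8_rpow, mul_pow, pow_succ]
  ring

/-- L-INF-A8 (~250 l.; same covering).  **Far part of a tube moment** (wall.tex l.90-98): `∫_{tdist > Λ L} (1 + tdist/L)^{-M} dμ ≤ C m L^{n+1} Λ^{-(M-n-1)}`. -/
theorem inf_tubeMom_far (n M : ℕ) (hM : n + 2 ≤ M) (T₀ Rω : ℝ) : ∃ C : ℝ, 0 ≤ C ∧ ∀ (ι : Type) (μ : Measure (ST n)) (A : Arr n ι) (α : ι) (m Λ : ℝ), 0 ≤ m → 1 ≤ Λ →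
    Grow μ m n → Slab μ (T₀ * A.L ^ 2) → 1 ≤ A.L → ‖A.om α‖ ≤ Rω →
    ∫⁻ z in {z | Λ * A.L < A.tdist α z}, ENNReal.ofReal ((1 + A.tdist α z / A.L) ^ (-(M : ℤ))) ∂μ
      ≤ ENNReal.ofReal (C * m * A.L ^ ((n : ℝ) + 1) * Λ ^ (-((M : ℝ) - n - 1))) := by
  obtain ⟨e, rfl⟩ := Nat.exists_eq_add_of_le hM
  refine ⟨(|T₀| + 2) * (2 * (1 + 2 * |Rω|)) ^ n * 2, by positivity, ?_⟩
  intro ι μ A α m Λ hm hΛ hμ hs hL hw
  have hs' : Slab μ (|T₀| * A.L ^ 2) := measure_mono_null (fun z hz =>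
    lt_of_le_of_lt (mul_le_mul_of_nonneg_right (le_abs_self T₀) (sq_nonneg _)) hz) hs
  have hw' : ‖A.om α‖ ≤ |Rω| := hw.trans (le_abs_self _)
  have h := inf_A8_far e hμ hm hs' (abs_nonneg T₀) hL hΛ hw' (A.y α)
  refine h.trans (ENNReal.ofReal_le_ofReal (le_of_eq ?_))
  have e2 : Λ ^ (-(((n + 2 + e : ℕ) : ℝ) - n - 1)) = (Λ ^ (e + 1))⁻¹ := by
    rw [show -(((n + 2 + e : ℕ) : ℝ) - n - 1) = -((e + 1 : ℕ) : ℝ) by push_cast; ring,
      Real.rpow_neg (by positivity), Real.rpow_natCast]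
  rw [inf_A8_rpow, e2]
  ring

/-- L-INF-A9 (~80 l.).  **Graph measures** (`closedBall` of the sup metric is a product; `Measure.addHaar_closedBall`). -/
theorem inf_grow_graph (T : E n → ℝ) (hT : Measurable T) (S : Set (E n)) :
    Grow ((volume.restrict S).map fun x => (x, T x)) (volume (closedBall (0 : E n) 1)).toReal n := by
  intro z r hr
  have hr0 : 0 ≤ r := zero_le_one.trans hr
  have hmT : Measurable fun x : E n => (x, T x) := measurable_id.prodMk hT
  rw [Measure.map_apply hmT measurableSet_closedBall]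
  have hsub : (fun x => (x, T x)) ⁻¹' closedBall z r ⊆ closedBall z.1 r := by
    intro x hx
    rw [mem_preimage, mem_closedBall, Prod.dist_eq] at hx
    exact mem_closedBall.2 ((le_max_left _ _).trans hx)
  refine (measure_mono hsub).trans ((Measure.restrict_apply_le _ _).trans (le_of_eq ?_))
  rw [Measure.addHaar_closedBall' _ _ hr0, finrank_euclideanSpace_fin, mul_comm,
    ENNReal.ofReal_mul ENNReal.toReal_nonneg, ENNReal.ofReal_toReal (isCompact_closedBall _ _).measure_lt_top.ne,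
    Real.rpow_natCast]

/-- L-INF-A9 (~40 l.).  restrictions and multiples -/
theorem inf_grow_restrict {μ : Measure (ST n)} {m a : ℝ} (hμ : Grow μ m a) (S : Set (ST n)) : Grow (μ.restrict S) m a :=
  fun z r hr => (Measure.restrict_apply_le _ _).trans (hμ z r hr)

/-- L-INF-A9 (~60 l.).  translations -/
theorem inf_grow_translate {μ : Measure (ST n)} {m a : ℝ} (hμ : Grow μ m a) (w : ST n) : Grow (μ.map fun z => z + w) m a := by
  intro z r hr
  have hmw : Measurable fun z : ST n => z + w := measurable_id.add_const w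
  rw [Measure.map_apply hmw measurableSet_closedBall]
  have : (fun z => z + w) ⁻¹' closedBall z r = closedBall (z - w) r := by
    ext y
    simp only [mem_preimage, mem_closedBall, dist_eq_norm]
    congr! 2
    abel
  rw [this]
  exact hμ _ r hr

/-- L-INF-A9 (~120 l.).  the half open unit cubes partition space-time -/
theorem inf_cube_partition (z : ST n) : ∃! k : (Fin n → ℤ) × ℤ, z ∈ cube k := by
  refine ⟨(fun i => ⌊z.1 i⌋, ⌊z.2⌋), ⟨fun i => ⟨Int.floor_le _, Int.lt_floor_add_one _⟩, Int.floor_le _, Int.lt_floor_add_one _⟩, ?_⟩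
  rintro ⟨k1, k2⟩ ⟨h1, h2⟩
  refine Prod.ext (funext fun i => ?_) ?_
  · exact (Int.floor_eq_iff.2 (h1 i)).symm
  · exact (Int.floor_eq_iff.2 h2).symm

/-- L-INF-A9 (~40 l.) -/
theorem inf_cube_measurable (k : (Fin n → ℤ) × ℤ) : MeasurableSet (cube k : Set (ST n)) := by
  have hc : ∀ i : Fin n, Measurable fun z : ST n => z.1 i := fun i =>
    ((EuclideanSpace.proj i : E n →L[ℝ] ℝ).continuous.comp continuous_fst).measurable
  have h1 : MeasurableSet {z : ST n | ∀ i, (k.1 i : ℝ) ≤ z.1 i ∧ z.1 i < k.1 i + 1} := by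
    rw [Set.ofPred_forall]
    refine MeasurableSet.iInter fun i => ?_
    exact (measurableSet_le measurable_const (hc i)).inter (measurableSet_lt (hc i) measurable_const)
  have h2 : MeasurableSet {z : ST n | (k.2 : ℝ) ≤ z.2 ∧ z.2 < k.2 + 1} :=
    (measurableSet_le measurable_const measurable_snd).inter (measurableSet_lt measurable_snd measurable_const)
  exact h1.inter h2

/-- L-INF-A9 (~60 l.).  a cube lies in the closed ball of radius `√n + 1` about any of its points (Euclidean norm in space, sup metric in space-time) -/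
theorem inf_cube_subset_ball (k : (Fin n → ℤ) × ℤ) {z : ST n} (hz : z ∈ cube k) : cube k ⊆ closedBall z (Real.sqrt n + 1) := by
  intro y hy
  rw [mem_closedBall, Prod.dist_eq]
  refine max_le ?_ ?_
  · rw [EuclideanSpace.dist_eq]
    have : ∑ i, dist (y.1 i) (z.1 i) ^ 2 ≤ (n : ℝ) := by
      calc ∑ i, dist (y.1 i) (z.1 i) ^ 2 ≤ ∑ _i : Fin n, (1 : ℝ) := by
            refine Finset.sum_le_sum fun i _ => ?_
            rw [Real.dist_eq, sq_abs]
            have h1 := hy.1 i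
            have h2 := hz.1 i
            nlinarith
        _ = n := by simp
    exact (Real.sqrt_le_sqrt this).trans (by linarith)
  · rw [Real.dist_eq, abs_le]
    have h1 := hy.2
    have h2 := hz.2
    have := Real.sqrt_nonneg (n : ℝ)
    constructor <;> linarith

end Claimed.Agent.R257
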