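import Claimed.Agent.R257.Infra.Alg
import Claimed.Agent.R257.Weak.Defs

/-!
# R257 / Infra / ArrB : units U9 + U11 = FIELDS OF ARRAYS AND EXACT FIELDS: DERIVATIVES, SUP BOUNDS, CUBE SOBOLEV        (captain of INFRA: helper53; plan: report 853 sec. D)

Paper H: (d:array-sup) fractal.tex l.66-75;  (s:sobolev) + "differentiating a compact atom produces atoms with the same labels" sparse.tex l.50-66;  last paragraph of the proof of d:dz-input (fractal.tex l.153-168).      PAPER-FREE.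
* `dirD l U` = iterated directional derivative along the list `l`;  `Arr.der A e`, `Arr.derL A l` = THE SAME array (scale, frequencies, intercepts, time centres) with the differentiated profiles:  `dirD l (A.fld s c) = (A.derL l).fld s c`, class `(J - |l|, R, (1 + 3Rω + Rω²)^{|l|} B)`.
* `derD e g`, `derDL l g` = the data of the derivatives of an exact field: `dirD l (ext g) = ext (derDL l g)`, same support, `‖derD e g‖₂ ≤ (R₀ + R₀²) ‖g‖₂`.
* **cube Sobolev WITHOUT enlargement and WITHOUT kernels**: `sup_q |U| ≤ ∑_{S ⊆ Fin (n+1)} ∫_q |∂^S U|` (`∂^S` = one derivative in each coordinate direction of `S`; iterate `|u(x)| ≤ ∫_0^1 |u| + ∫_0^1 |u'|`).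
  So every INTEGRAL estimate over unit cubes which holds for a class closed under differentiation (arrays, exact fields) gives the estimate for the SUPREMA over the same cubes: no reproducing kernel, no translated cubes (replaces U10 for exponents `≥ 1`).
* `inf_arr_active`, `inf_arr_sup_loc`, `inf_arr_sup`, `inf_arrSupWith`: (d:array-sup).  **FALSE for real native time centres**: `tc` must be integer valued (or `0`).
Every `sorry` is a LEAF `L-INF-B*` (name in the docstring).  Statements frozen (tell helper53 at once if one looks false or awkward); prove IN PLACE, helper lemmas directly above your theorem, prefix `inf_<leaf>_`.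
-/

set_option autoImplicit false

namespace Claimed.Agent.R257

open MeasureTheory Metric Set
open scoped ENNReal ContDiff InnerProductSpace

variable {n : ℕ} {ι : Type}

/-! ## 1. Derivatives of fields of arrays      (leaves L-INF-B1, L-INF-B2) -/

/-- iterated directional derivative: `dirD (e :: l) U z = D (dirD l U) (z) e` -/
noncomputable def dirD (l : List (ST n)) (U : ST n → ℂ) : ST n → ℂ := l.foldr (fun e F z => fderiv ℝ F z e) U

/-- the native profile of the derivative of an atom in the direction `e` -/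
noncomputable def derPf (L : ℝ) (w : E n) (e : ST n) (φ : ST n → ℂ) (X : ST n) : ℂ :=
  Complex.I * ((⟪e.1, w⟫_ℝ - e.2 * ‖w‖ ^ 2 : ℝ) : ℂ) * φ X + fderiv ℝ φ X (L⁻¹ • (e.1 - (2 * e.2) • w), e.2 / L ^ 2)

/-- the array of the derivatives in the direction `e`: same labels -/
noncomputable def Arr.der (A : Arr n ι) (e : ST n) : Arr n ι where
  L := A.L
  om := A.om
  y := A.y
  tc := A.tc
  pf α := derPf A.L (A.om α) e (A.pf α)

/-- iterated -/
noncomputable def Arr.derL (A : Arr n ι) (l : List (ST n)) : Arr n ι := l.foldr (fun e A' => A'.der e) A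

theorem inf_derL_L (A : Arr n ι) (l : List (ST n)) : (A.derL l).L = A.L := by
  induction l with
  | nil => rfl
  | cons e l ih => exact ih

theorem inf_derL_om (A : Arr n ι) (l : List (ST n)) : (A.derL l).om = A.om := by
  induction l with
  | nil => rfl
  | cons e l ih => exact ih

theorem inf_derL_y (A : Arr n ι) (l : List (ST n)) : (A.derL l).y = A.y := by
  induction l with
  | nil => rfl
  | cons e l ih => exact ih

theorem inf_derL_tc (A : Arr n ι) (l : List (ST n)) : (A.derL l).tc = A.tc := by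
  induction l with
  | nil => rfl
  | cons e l ih => exact ih

/-- the linear phase -/
noncomputable def inf_B1_ph (w : E n) : ST n →L[ℝ] ℝ :=
  (innerSL ℝ w).comp (ContinuousLinearMap.fst ℝ (E n) ℝ) - (‖w‖ ^ 2) • ContinuousLinearMap.snd ℝ (E n) ℝ

theorem inf_B1_ph_apply (w : E n) (z : ST n) : inf_B1_ph w z = ⟪z.1, w⟫_ℝ - z.2 * ‖w‖ ^ 2 := by
  simp only [inf_B1_ph, sub_apply, ContinuousLinearMap.comp_apply, ContinuousLinearMap.coe_fst',
    innerSL_apply_apply, smul_apply, ContinuousLinearMap.coe_snd', smul_eq_mul]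
  rw [real_inner_comm, mul_comm]

theorem inf_B1_car_eq (w : E n) : car w = fun z => Complex.exp (Complex.I * ((inf_B1_ph w z : ℝ) : ℂ)) := by
  funext z
  rw [inf_B1_ph_apply]
  rfl

theorem inf_B1_car_hasFDerivAt (w : E n) (z : ST n) :
    HasFDerivAt (car w) (car w z • (Complex.I • (Complex.ofRealCLM.comp (inf_B1_ph w)))) z := by
  have h1 : HasFDerivAt (fun z : ST n => ((inf_B1_ph w z : ℝ) : ℂ)) (Complex.ofRealCLM.comp (inf_B1_ph w)) z :=
    (Complex.ofRealCLM.comp (inf_B1_ph w)).hasFDerivAt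
  have h2 : HasFDerivAt (fun z : ST n => Complex.I * ((inf_B1_ph w z : ℝ) : ℂ))
      (Complex.I • (Complex.ofRealCLM.comp (inf_B1_ph w))) z := h1.const_mul Complex.I
  have h3 := h2.cexp
  rw [inf_B1_car_eq]
  exact h3

/-- L-INF-B1 (~60 l.; `fun_prop` / `ContDiff.cexp`, `ContDiff.comp`) -/
theorem inf_car_contDiff (w : E n) : ContDiff ℝ ∞ (car w) := by
  rw [inf_B1_car_eq]
  have h1 : ContDiff ℝ ∞ (fun z : ST n => ((inf_B1_ph w z : ℝ) : ℂ)) :=
    (Complex.ofRealCLM.comp (inf_B1_ph w)).contDiff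
  exact (contDiff_const.mul h1).cexp

/-- L-INF-B1 (~40 l.) -/
theorem inf_car_fderiv (w : E n) (z e : ST n) : fderiv ℝ (car w) z e = Complex.I * ((⟪e.1, w⟫_ℝ - e.2 * ‖w‖ ^ 2 : ℝ) : ℂ) * car w z := by
  rw [(inf_B1_car_hasFDerivAt w z).fderiv, ← inf_B1_ph_apply]
  simp only [smul_apply, ContinuousLinearMap.comp_apply, Complex.ofRealCLM_apply, smul_eq_mul]
  ring

/-- the linear part of the chart -/
noncomputable def inf_B1_ch (L : ℝ) (w : E n) : ST n →L[ℝ] ST n :=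
  (L⁻¹ • (ContinuousLinearMap.fst ℝ (E n) ℝ - ((2 : ℝ) • ContinuousLinearMap.snd ℝ (E n) ℝ).smulRight w)).prod
    ((L ^ 2)⁻¹ • ContinuousLinearMap.snd ℝ (E n) ℝ)

theorem inf_B1_ch_apply (L : ℝ) (w : E n) (e : ST n) : inf_B1_ch L w e = (L⁻¹ • (e.1 - (2 * e.2) • w), e.2 / L ^ 2) := by
  simp only [inf_B1_ch, ContinuousLinearMap.prod_apply, smul_apply, sub_apply,
    ContinuousLinearMap.coe_fst', ContinuousLinearMap.smulRight_apply, ContinuousLinearMap.coe_snd', smul_eq_mul]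
  rw [div_eq_inv_mul]

theorem inf_B1_chart_eq (L : ℝ) (w y : E n) (τ : ℝ) : chart L w y τ = fun z => inf_B1_ch L w z + (-(L⁻¹ • y), -τ) := by
  funext z
  rw [inf_B1_ch_apply]
  unfold chart
  ext1
  · simp only [Prod.mk_add_mk, smul_sub]
    abel
  · simp only [Prod.mk_add_mk]
    ring

theorem inf_B1_chart_hasFDerivAt (L : ℝ) (w y : E n) (τ : ℝ) (z : ST n) : HasFDerivAt (chart L w y τ) (inf_B1_ch L w) z := by
  rw [inf_B1_chart_eq]
  exact (inf_B1_ch L w).hasFDerivAt.add_const _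

/-- L-INF-B1 (~30 l.; the chart is affine) -/
theorem inf_chart_contDiff (L : ℝ) (w y : E n) (τ : ℝ) : ContDiff ℝ ∞ (chart L w y τ) := by
  rw [inf_B1_chart_eq]
  exact (inf_B1_ch L w).contDiff.add contDiff_const

/-- L-INF-B1 (~40 l.) -/
theorem inf_chart_fderiv (L : ℝ) (w y : E n) (τ : ℝ) (z e : ST n) :
    fderiv ℝ (chart L w y τ) z e = (L⁻¹ • (e.1 - (2 * e.2) • w), e.2 / L ^ 2) := by
  rw [(inf_B1_chart_hasFDerivAt L w y τ z).fderiv, inf_B1_ch_apply]

/-- L-INF-B1 (~30 l.) -/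
theorem inf_atom_contDiff (A : Arr n ι) (α : ι) (h : ContDiff ℝ ∞ (A.pf α)) : ContDiff ℝ ∞ (A.atom α) := by
  unfold Arr.atom
  exact (contDiff_const.mul (inf_car_contDiff _)).mul (h.comp (inf_chart_contDiff _ _ _ _))

/-- L-INF-B1 (~80 l.).  **The derivative of an atom is the atom of the differentiated profile.** -/
theorem inf_atom_fderiv (A : Arr n ι) (α : ι) (h : ContDiff ℝ ∞ (A.pf α)) (z e : ST n) : fderiv ℝ (A.atom α) z e = (A.der e).atom α z := by
  have h1 := inf_B1_car_hasFDerivAt (A.om α) z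
  have h2 := inf_B1_chart_hasFDerivAt A.L (A.om α) (A.y α) (A.tc α) z
  have h3 : HasFDerivAt (A.pf α) (fderiv ℝ (A.pf α) (chart A.L (A.om α) (A.y α) (A.tc α) z))
      (chart A.L (A.om α) (A.y α) (A.tc α) z) :=
    (h.differentiable (by simp)).differentiableAt.hasFDerivAt
  have h4 := h3.comp z h2
  have h5 := (h1.const_mul ((A.L ^ (-(n : ℝ) / 2) : ℝ) : ℂ)).mul h4
  have h6 : A.atom α = (fun y => ((A.L ^ (-(n : ℝ) / 2) : ℝ) : ℂ) * car (A.om α) y) *
      (A.pf α ∘ chart A.L (A.om α) (A.y α) (A.tc α)) := rfl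
  rw [h6, h5.fderiv]
  simp only [Arr.atom, Arr.der, derPf, add_apply, smul_apply,
    ContinuousLinearMap.comp_apply, Complex.ofRealCLM_apply, smul_eq_mul, Function.comp_apply, inf_B1_ch_apply,
    inf_B1_ph_apply]
  ring

theorem inf_B1_fld_contDiff (A : Arr n ι) (s : Finset ι) (h : ∀ α ∈ s, ContDiff ℝ ∞ (A.pf α)) (c : ι → ℂ) :
    ContDiff ℝ ∞ (A.fld s c) := by
  unfold Arr.fld
  exact ContDiff.sum fun α hα => contDiff_const.mul (inf_atom_contDiff A α (h α hα))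

theorem inf_B1_fld_fderiv (A : Arr n ι) (s : Finset ι) (h : ∀ α ∈ s, ContDiff ℝ ∞ (A.pf α)) (c : ι → ℂ) (z e : ST n) :
    fderiv ℝ (A.fld s c) z e = (A.der e).fld s c z := by
  have h1 : ∀ α ∈ s, HasFDerivAt (fun z => c α * A.atom α z) (c α • fderiv ℝ (A.atom α) z) z := fun α hα =>
    (((inf_atom_contDiff A α (h α hα)).differentiable (by simp)).differentiableAt.hasFDerivAt).const_mul (c α)
  have h2 := HasFDerivAt.fun_sum h1
  unfold Arr.fld
  rw [h2.fderiv, sum_apply]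
  refine Finset.sum_congr rfl fun α hα => ?_
  rw [smul_apply, inf_atom_fderiv A α (h α hα), smul_eq_mul]

/-- L-INF-B1 (~20 l.) -/
theorem inf_fld_contDiff {A : Arr n ι} {s : Finset ι} {K : Cls} (hA : A.In s K) (c : ι → ℂ) : ContDiff ℝ ∞ (A.fld s c) :=
  inf_B1_fld_contDiff A s (fun α hα => (hA.prof α hα).smooth) c

/-- L-INF-B1 (~40 l.) -/
theorem inf_fld_fderiv {A : Arr n ι} {s : Finset ι} {K : Cls} (hA : A.In s K) (c : ι → ℂ) (z e : ST n) :
    fderiv ℝ (A.fld s c) z e = (A.der e).fld s c z :=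
  inf_B1_fld_fderiv A s (fun α hα => (hA.prof α hα).smooth) c z e

theorem inf_B2_derPf_contDiff (L : ℝ) (w : E n) (e : ST n) {φ : ST n → ℂ} (h : ContDiff ℝ ∞ φ) :
    ContDiff ℝ ∞ (derPf L w e φ) := by
  unfold derPf
  exact (contDiff_const.mul h).add ((h.fderiv_right (m := ∞) (by simp)).clm_apply contDiff_const)

theorem inf_B2_derPf_supp (L : ℝ) (w : E n) (e : ST n) {φ : ST n → ℂ} {R : ℝ} (hs : ∀ z, φ z ≠ 0 → ‖z‖ ≤ R) (X : ST n)
    (hX : derPf L w e φ X ≠ 0) : ‖X‖ ≤ R := by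
  by_contra hc
  have hc' : R < ‖X‖ := not_le.1 hc
  have hev : φ =ᶠ[nhds X] fun _ => 0 := by
    have h1 : ∀ᶠ Y in nhds X, R < ‖Y‖ := continuous_norm.continuousAt.eventually (lt_mem_nhds hc')
    filter_upwards [h1] with Y hY
    by_contra h0
    exact absurd (hs Y h0) (not_le.2 hY)
  have h1 : φ X = 0 := hev.self_of_nhds
  have h2 : fderiv ℝ φ X = 0 := by
    rw [hev.fderiv_eq]
    simp
  apply hX
  unfold derPf
  rw [h1, h2]
  simp

theorem inf_B2_derPf_bound (L : ℝ) (w : E n) (e : ST n) {φ : ST n → ℂ} (h : ContDiff ℝ ∞ φ) {J : ℕ} {B a b : ℝ}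
    (hb : ∀ j ≤ J, ∀ z, ‖iteratedFDeriv ℝ j φ z‖ ≤ B) (hJ : 1 ≤ J) (ha : |⟪e.1, w⟫_ℝ - e.2 * ‖w‖ ^ 2| ≤ a)
    (hu : ‖((L⁻¹ • (e.1 - (2 * e.2) • w), e.2 / L ^ 2) : ST n)‖ ≤ b) (j : ℕ) (hj : j ≤ J - 1) (z : ST n) :
    ‖iteratedFDeriv ℝ j (derPf L w e φ) z‖ ≤ (a + b) * B := by
  have hB : 0 ≤ B := (norm_nonneg _).trans (hb 0 (Nat.zero_le _) z)
  set k : ℂ := Complex.I * ((⟪e.1, w⟫_ℝ - e.2 * ‖w‖ ^ 2 : ℝ) : ℂ) with hk
  set u : ST n := (L⁻¹ • (e.1 - (2 * e.2) • w), e.2 / L ^ 2) with hu'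
  have hkn : ‖k‖ ≤ a := by
    rw [hk, norm_mul, Complex.norm_I, one_mul, Complex.norm_real]
    exact ha
  have e1 : derPf L w e φ = (k • φ) + fun X => fderiv ℝ φ X u := by
    funext X
    rfl
  have c1 : ContDiff ℝ ∞ (fderiv ℝ φ) := h.fderiv_right (m := ∞) (by simp)
  have c2 : ContDiff ℝ ∞ (fun X => fderiv ℝ φ X u) := c1.clm_apply contDiff_const
  have hjle : ((j : ℕ∞) : WithTop ℕ∞) ≤ ((⊤ : ℕ∞) : WithTop ℕ∞) := by exact_mod_cast le_top
  have c3 : ContDiff ℝ ∞ (k • φ) := h.const_smul k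
  rw [e1, iteratedFDeriv_add_apply (c3.contDiffAt.of_le hjle) (c2.contDiffAt.of_le hjle),
    iteratedFDeriv_const_smul_apply (h.contDiffAt.of_le hjle)]
  have n1 : ‖k • iteratedFDeriv ℝ j φ z‖ ≤ a * B := by
    rw [norm_smul]
    exact mul_le_mul hkn (hb j (hj.trans (Nat.sub_le _ _)) z) (norm_nonneg _) ((norm_nonneg _).trans hkn)
  have n2 : ‖iteratedFDeriv ℝ j (fun X => fderiv ℝ φ X u) z‖ ≤ b * B := by
    refine (norm_iteratedFDeriv_clm_apply_const (c1.contDiffAt (x := z)) hjle).trans ?_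
    rw [norm_iteratedFDeriv_fderiv]
    exact mul_le_mul hu (hb (j + 1) (by omega) z) (norm_nonneg _) ((norm_nonneg _).trans hu)
  calc _ ≤ ‖k • iteratedFDeriv ℝ j φ z‖ + ‖iteratedFDeriv ℝ j (fun X => fderiv ℝ φ X u) z‖ := norm_add_le _ _
    _ ≤ a * B + b * B := add_le_add n1 n2
    _ = (a + b) * B := by ring

/-- L-INF-B2 (~200 l.).  **The class of the derivative.**   `‖D^j (X ↦ Dφ(X) u)‖ ≤ ‖u‖ ‖D^{j+1} φ‖` (`norm_iteratedFDeriv_clm_apply_const` / `ContinuousLinearMap.norm_iteratedFDeriv_comp_left` + `iteratedFDeriv_succ_eq_comp_right`),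
`‖u‖ ≤ 1 + 2 Rω` because `1 ≤ L`, `|⟪e.1, ω⟫ - e.2 |ω|²| ≤ Rω + Rω²`;  support: the derivative vanishes off the (closed) support. -/
theorem inf_in_der {A : Arr n ι} {s : Finset ι} {K : Cls} (hA : A.In s K) (hJ : 1 ≤ K.J) {e : ST n} (he : ‖e‖ ≤ 1) :
    (A.der e).In s { K with J := K.J - 1, B := (1 + 3 * K.Rω + K.Rω ^ 2) * K.B } := by
  have he1 : ‖e.1‖ ≤ 1 := (norm_fst_le e).trans he
  have he2 : |e.2| ≤ 1 := (norm_snd_le e).trans he
  refine ⟨hA.one_le, fun α hα => ?_, hA.freq, hA.mult⟩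
  obtain ⟨hs, hsu, hb⟩ := hA.prof α hα
  have hw := hA.freq α hα
  have hw0 : 0 ≤ ‖A.om α‖ := norm_nonneg _
  have hL := hA.one_le
  have hL0 : 0 < A.L := by linarith
  refine ⟨inf_B2_derPf_contDiff _ _ _ hs, inf_B2_derPf_supp _ _ _ hsu, fun j hj z => ?_⟩
  have ha : |⟪e.1, A.om α⟫_ℝ - e.2 * ‖A.om α‖ ^ 2| ≤ K.Rω + K.Rω ^ 2 := by
    have h1 : |⟪e.1, A.om α⟫_ℝ| ≤ K.Rω := by
      refine (abs_real_inner_le_norm _ _).trans ?_
      nlinarith [norm_nonneg e.1]
    have h2 : |e.2 * ‖A.om α‖ ^ 2| ≤ K.Rω ^ 2 := by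
      rw [abs_mul, abs_of_nonneg (by positivity : (0 : ℝ) ≤ ‖A.om α‖ ^ 2)]
      have h3 : ‖A.om α‖ ^ 2 ≤ K.Rω ^ 2 := pow_le_pow_left₀ hw0 hw 2
      nlinarith [abs_nonneg e.2, sq_nonneg ‖A.om α‖]
    exact (abs_sub _ _).trans (add_le_add h1 h2)
  have hu : ‖((A.L⁻¹ • (e.1 - (2 * e.2) • A.om α), e.2 / A.L ^ 2) : ST n)‖ ≤ 1 + 2 * K.Rω := by
    have hLi : A.L⁻¹ ≤ 1 := inv_le_one_of_one_le₀ hL
    have hLi0 : 0 ≤ A.L⁻¹ := inv_nonneg.2 hL0.le
    rw [Prod.norm_def]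
    refine max_le ?_ ?_
    · simp only []
      rw [norm_smul, Real.norm_of_nonneg hLi0]
      have h1 : ‖e.1 - (2 * e.2) • A.om α‖ ≤ 1 + 2 * K.Rω := by
        refine (norm_sub_le _ _).trans (add_le_add he1 ?_)
        rw [norm_smul, Real.norm_eq_abs, abs_mul, abs_two]
        nlinarith [abs_nonneg e.2]
      calc A.L⁻¹ * ‖e.1 - (2 * e.2) • A.om α‖ ≤ 1 * ‖e.1 - (2 * e.2) • A.om α‖ :=
            mul_le_mul_of_nonneg_right hLi (norm_nonneg _)
        _ ≤ _ := by rw [one_mul]; exact h1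
    · simp only []
      rw [Real.norm_eq_abs, abs_div, abs_of_pos (by positivity : (0 : ℝ) < A.L ^ 2), div_le_iff₀ (by positivity)]
      have h2 : 1 ≤ A.L ^ 2 := one_le_pow₀ hL
      have h3 : 0 ≤ K.Rω := hw0.trans hw
      nlinarith
  have := inf_B2_derPf_bound A.L (A.om α) e hs hb hJ ha hu j hj z
  refine this.trans (le_of_eq ?_)
  ring

/-- L-INF-B2 (~60 l.; induction on `l` from `inf_in_der`) -/
theorem inf_in_derL {A : Arr n ι} {s : Finset ι} {K : Cls} (hA : A.In s K) (l : List (ST n)) (hl : l.length ≤ K.J) (he : ∀ e ∈ l, ‖e‖ ≤ 1) :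
    (A.derL l).In s { K with J := K.J - l.length, B := (1 + 3 * K.Rω + K.Rω ^ 2) ^ l.length * K.B } := by
  induction l with
  | nil =>
    simpa [Arr.derL] using hA
  | cons e l ih =>
    have hl' : l.length + 1 ≤ K.J := by simpa using hl
    have h1 := ih (by omega) fun e' he' => he e' (List.mem_cons_of_mem _ he')
    have h2 := inf_in_der h1 (by simp only []; omega) (he e List.mem_cons_self)
    have e1 : A.derL (e :: l) = (A.derL l).der e := rfl
    rw [e1]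
    convert h2 using 2
    · simp only [List.length_cons]
      omega
    · simp only [List.length_cons]
      ring

theorem inf_B2_derL_smooth (A : Arr n ι) (s : Finset ι) (h : ∀ α ∈ s, ContDiff ℝ ∞ (A.pf α)) (l : List (ST n)) :
    ∀ α ∈ s, ContDiff ℝ ∞ ((A.derL l).pf α) := by
  induction l with
  | nil => exact h
  | cons e l ih => exact fun α hα => inf_B2_derPf_contDiff _ _ _ (ih α hα)

/-- L-INF-B2 (~40 l.; induction on `l` from `inf_fld_fderiv`; smooth profiles stay smooth, no bound is needed: use `inf_in_derL`-free argument or a class with `J = 0`) -/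
theorem inf_fld_dirD {A : Arr n ι} {s : Finset ι} {K : Cls} (hA : A.In s K) (c : ι → ℂ) (l : List (ST n)) :
    dirD l (A.fld s c) = (A.derL l).fld s c := by
  induction l with
  | nil => rfl
  | cons e l ih =>
    have e1 : dirD (e :: l) (A.fld s c) = fun z => fderiv ℝ (dirD l (A.fld s c)) z e := rfl
    rw [e1, ih]
    funext z
    exact inf_B1_fld_fderiv (A.derL l) s (inf_B2_derL_smooth A s (fun α hα => (hA.prof α hα).smooth) l) c z e

/-! ## 2. (d:array-sup)      (leaves L-INF-B3, L-INF-B4) -/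

/-- the labels which are active at `z` -/
noncomputable def Arr.act (A : Arr n ι) (s : Finset ι) (z : ST n) : Finset ι := by
  classical exact s.filter fun α => A.pf α (chart A.L (A.om α) (A.y α) (A.tc α) z) ≠ 0

/-- counting through a finite cover of the labels -/
theorem inf_B3_count {ι κ : Type*} (S : Finset ι) (J : Finset κ) (P : ι → κ → Prop) (b : ℝ)
    (hcov : ∀ α ∈ S, ∃ j ∈ J, P α j) (hb : ∀ j ∈ J, ∀ t : Finset ι, t ⊆ S → (∀ α ∈ t, P α j) → (t.card : ℝ) ≤ b) :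
    (S.card : ℝ) ≤ J.card * b := by
  classical
  have h1 : S ⊆ J.biUnion fun j => S.filter fun α => P α j := by
    intro α hα
    obtain ⟨j, hj, hP⟩ := hcov α hα
    exact Finset.mem_biUnion.2 ⟨j, hj, Finset.mem_filter.2 ⟨hα, hP⟩⟩
  calc (S.card : ℝ) ≤ ((J.biUnion fun j => S.filter fun α => P α j).card : ℝ) := by exact_mod_cast Finset.card_le_card h1
    _ ≤ ((∑ j ∈ J, (S.filter fun α => P α j).card : ℕ) : ℝ) := by exact_mod_cast Finset.card_biUnion_le
    _ = ∑ j ∈ J, ((S.filter fun α => P α j).card : ℝ) := by push_cast; rfl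
    _ ≤ ∑ _j ∈ J, b := Finset.sum_le_sum fun j hj => hb j hj _ (Finset.filter_subset _ _) (fun α hα => (Finset.mem_filter.1 hα).2)
    _ = J.card * b := by rw [Finset.sum_const, nsmul_eq_mul]

/-- L-INF-B3 (~350 l.).  **At most `C L^n` labels are active at a point.**   `α` active ⟹ `|x - y - 2tω| ≤ R L`, `|t/L² - σ| ≤ R`: at most `2R + 1` integers `σ`.   Fix `σ`, `s' = t/L² - σ`;  label `(a, b, σ) = (Lω, y/L + 2σLω, σ)`:
`|x/L - b - 2 s' a| ≤ R`, `|a| ≤ L Rω`.   Cover the ball `|a| ≤ L Rω` by `≤ C (L Rω + 1)^n` closed unit balls `B(a₀, 1)`; then `b ∈ B(x/L - 2 s' a₀, 3R)`, covered by `≤ C (3R + 1)^n` closed unit balls; each product of unit balls is a closed unit ball of the label space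
(sup metric): `≤ m₀` labels.    (covering numbers: a maximal `1`-separated subset + volume, or the lattice `n^{-1/2} ℤⁿ`.) -/
theorem inf_arr_active (n : ℕ) (K : Cls) : ∃ C : ℝ, 0 ≤ C ∧ ∀ (ι : Type) (A : Arr n ι) (s : Finset ι) (z : ST n), A.In s K → (∀ α ∈ s, ∃ k : ℤ, A.tc α = k) →
    ((A.act s z).card : ℝ) ≤ C * A.L ^ n := by
  set R : ℝ := |K.R| with hR
  set W : ℝ := |K.Rω| with hW
  have hR0 : 0 ≤ R := abs_nonneg _
  have hW0 : 0 ≤ W := abs_nonneg _
  set Mt : ℕ := ⌈R⌉₊ + 1 with hMt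
  refine ⟨Mt * ((W * Real.sqrt n + 2) ^ n * (((3 * R + 2) * Real.sqrt n + 2) ^ n * K.m₀)), by positivity, ?_⟩
  intro ι A s z hA _
  set L : ℝ := A.L with hL
  have hL1 : 1 ≤ L := hA.one_le
  have hL0 : 0 < L := zero_lt_one.trans_le hL1
  have hMt1 : 1 ≤ Mt := by omega
  have hMt0 : (0 : ℝ) < Mt := by exact_mod_cast hMt1
  set h : ℝ := R / Mt with hh
  have hMh : Mt * h = R := by rw [hh]; field_simp
  have hh1 : h ≤ 1 := by
    rw [hh, div_le_one hMt0, hMt]; push_cast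
    linarith [Nat.le_ceil R]
  set τ : ℕ → ℝ := fun i => z.2 / L ^ 2 - Mt * h + (2 * i + 1) * h with hτ
  -- facts on active labels
  have hact : ∀ α ∈ A.act s z, α ∈ s ∧ ‖L⁻¹ • (z.1 - A.y α - (2 * z.2) • A.om α)‖ ≤ R ∧ |z.2 / L ^ 2 - A.tc α| ≤ R ∧ ‖A.om α‖ ≤ W := by
    intro α hα
    unfold Arr.act at hα
    obtain ⟨h1, h2⟩ := Finset.mem_filter.1 hα
    have h3 := ((hA.prof α h1).supp _ h2).trans (le_abs_self _)
    rw [Prod.norm_def, max_le_iff] at h3
    exact ⟨h1, h3.1, h3.2, (hA.freq α h1).trans (le_abs_self _)⟩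
  obtain ⟨Fa, hFa1, hFa2⟩ := inf_A6_ball_cover n (L * W) (by positivity) (0 : E n)
  have hstage1 := inf_B3_count (A.act s z) (Finset.range Mt) (fun α i => |A.tc α - τ i| ≤ h)
    (Fa.card * (((3 * R + 2) * Real.sqrt n + 2) ^ n * K.m₀))
    (by
      intro α hα
      obtain ⟨-, -, h3, -⟩ := hact α hα
      exact inf_A6_cut (z.2 / L ^ 2) h Mt hMt1 (A.tc α) (by rw [hMh, abs_sub_comm]; exact h3))
    (by
      intro i _ t ht hti
      refine inf_B3_count t Fa (fun α a₀ => ‖L • A.om α - a₀‖ ≤ 1) _ ?_ ?_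
      · intro α hα
        obtain ⟨-, -, -, h4⟩ := hact α (ht hα)
        have h5 : L • A.om α ∈ closedBall (0 : E n) (L * W) := by
          rw [mem_closedBall, dist_zero_right, norm_smul, Real.norm_eq_abs, abs_of_pos hL0]
          exact mul_le_mul_of_nonneg_left h4 hL0.le
        obtain ⟨p, hp, hzp⟩ := mem_iUnion₂.1 (hFa2 h5)
        exact ⟨p, hp, by rw [← dist_eq_norm]; exact mem_closedBall.1 hzp⟩
      · intro a₀ _ t' ht' hta
        set si : ℝ := z.2 / L ^ 2 - τ i with hsi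
        obtain ⟨Fb, hFb1, hFb2⟩ := inf_A6_ball_cover n (3 * R + 2) (by positivity) (L⁻¹ • z.1 - (2 * si) • a₀)
        have hstage3 := inf_B3_count t' Fb (fun α y₀ => ‖L⁻¹ • A.y α + (2 * τ i * L) • A.om α - y₀‖ ≤ 1) (K.m₀ : ℝ)
          (by
            intro α hα
            obtain ⟨-, h2, h3, -⟩ := hact α (ht (ht' hα))
            have h5 : |A.tc α - τ i| ≤ h := hti α (ht' hα)
            have h6 : ‖L • A.om α - a₀‖ ≤ 1 := hta α hα
            have hsi1 : |si| ≤ R + 1 := by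
              have e : si = (z.2 / L ^ 2 - A.tc α) + (A.tc α - τ i) := by rw [hsi]; ring
              rw [e]
              exact (abs_add_le _ _).trans (by linarith)
            have e1 : (2 * si) * L = 2 * z.2 * L⁻¹ - 2 * τ i * L := by rw [hsi]; field_simp
            have e2 : L⁻¹ • A.y α + (2 * τ i * L) • A.om α - (L⁻¹ • z.1 - (2 * si) • a₀)
                = -(L⁻¹ • (z.1 - A.y α - (2 * z.2) • A.om α)) - (2 * si) • (L • A.om α - a₀) := by
              rw [smul_sub (2 * si), smul_smul (2 * si) L, e1]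
              module
            have h7 : L⁻¹ • A.y α + (2 * τ i * L) • A.om α ∈ closedBall (L⁻¹ • z.1 - (2 * si) • a₀) (3 * R + 2) := by
              rw [mem_closedBall, dist_eq_norm, e2]
              refine (norm_sub_le _ _).trans ?_
              rw [norm_neg, norm_smul (2 * si), Real.norm_eq_abs, abs_mul, abs_two]
              have : 2 * |si| * ‖L • A.om α - a₀‖ ≤ 2 * (R + 1) * 1 :=
                mul_le_mul (by linarith) h6 (norm_nonneg _) (by positivity)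
              linarith
            obtain ⟨p, hp, hzp⟩ := mem_iUnion₂.1 (hFb2 h7)
            exact ⟨p, hp, by rw [← dist_eq_norm]; exact mem_closedBall.1 hzp⟩)
          (by
            intro y₀ _ t'' ht'' hty
            have := hA.mult a₀ y₀ (τ i) t'' (fun α hα => (hact α (ht (ht' (ht'' hα)))).1)
              (fun α hα => ⟨hta α (ht'' hα), (hti α (ht' (ht'' hα))).trans hh1, hty α hα⟩)
            exact_mod_cast this)
        refine hstage3.trans ?_
        exact mul_le_mul_of_nonneg_right hFb1 (Nat.cast_nonneg _))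
  refine hstage1.trans ?_
  rw [Finset.card_range]
  have hFa3 : (Fa.card : ℝ) ≤ (W * Real.sqrt n + 2) ^ n * L ^ n := by
    refine hFa1.trans ?_
    rw [← mul_pow]
    refine pow_le_pow_left₀ (by positivity) ?_ n
    have : 0 ≤ W * Real.sqrt n := by positivity
    nlinarith
  have hB0 : 0 ≤ ((3 * R + 2) * Real.sqrt n + 2) ^ n * (K.m₀ : ℝ) := by positivity
  calc (Mt : ℝ) * (Fa.card * (((3 * R + 2) * Real.sqrt n + 2) ^ n * K.m₀))
      ≤ Mt * (((W * Real.sqrt n + 2) ^ n * L ^ n) * (((3 * R + 2) * Real.sqrt n + 2) ^ n * K.m₀)) :=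
        mul_le_mul_of_nonneg_left (mul_le_mul_of_nonneg_right hFa3 hB0) hMt0.le
    _ = _ := by ring

theorem inf_b4_mem_act (A : Arr n ι) (s : Finset ι) (z : ST n) (α : ι) :
    α ∈ A.act s z ↔ α ∈ s ∧ A.pf α (chart A.L (A.om α) (A.y α) (A.tc α) z) ≠ 0 := by
  classical
  unfold Arr.act
  rw [Finset.mem_filter]

theorem inf_b4_fld_eq_act (A : Arr n ι) (s : Finset ι) (c : ι → ℂ) (z : ST n) : A.fld s c z = A.fld (A.act s z) c z := by
  classical
  unfold Arr.fld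
  refine (Finset.sum_subset (fun α hα => ((inf_b4_mem_act A s z α).1 hα).1) fun α hs hα => ?_).symm
  have h0 : A.pf α (chart A.L (A.om α) (A.y α) (A.tc α) z) = 0 := by
    by_contra hne
    exact hα ((inf_b4_mem_act A s z α).2 ⟨hs, hne⟩)
  simp [Arr.atom, h0]

theorem inf_b4_atom_sq {A : Arr n ι} {s : Finset ι} {K : Cls} (hA : A.In s K) {α : ι} (hα : α ∈ s) (z : ST n) :
    ‖A.atom α z‖ ^ 2 ≤ (A.L ^ n)⁻¹ * K.B ^ 2 := by
  have hL : 0 < A.L := lt_of_lt_of_le one_pos hA.one_le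
  have hb : ‖A.pf α (chart A.L (A.om α) (A.y α) (A.tc α) z)‖ ≤ K.B := by
    have := (hA.prof α hα).bound 0 (Nat.zero_le _) (chart A.L (A.om α) (A.y α) (A.tc α) z)
    simpa using this
  have e1 : (A.L ^ (-(n : ℝ) / 2)) ^ 2 = (A.L ^ n)⁻¹ := by
    rw [← Real.rpow_natCast (A.L ^ (-(n : ℝ) / 2)) 2, ← Real.rpow_mul hL.le, ← Real.rpow_natCast A.L n,
      ← Real.rpow_neg hL.le]
    congr 1
    push_cast
    ring
  unfold Arr.atom
  rw [norm_mul, norm_mul, inf_car_norm, mul_one, Complex.norm_real, Real.norm_of_nonneg (Real.rpow_nonneg hL.le _),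
    mul_pow, e1]
  have h0 : 0 ≤ (A.L ^ n)⁻¹ := by positivity
  exact mul_le_mul_of_nonneg_left (pow_le_pow_left₀ (norm_nonneg _) hb 2) h0

/-- L-INF-B4 (~120 l.).  Cauchy-Schwarz: `|atom| ≤ L^{-n/2} B`, `inf_arr_active`. -/
theorem inf_arr_sup_loc (n : ℕ) (K : Cls) : ∃ C : ℝ, 0 ≤ C ∧ ∀ (ι : Type) (A : Arr n ι) (s : Finset ι) (c : ι → ℂ) (z : ST n), A.In s K → (∀ α ∈ s, ∃ k : ℤ, A.tc α = k) →
    ‖A.fld s c z‖ ^ 2 ≤ C * ∑ α ∈ A.act s z, ‖c α‖ ^ 2 := by
  obtain ⟨C₀, hC₀, hact⟩ := inf_arr_active n K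
  refine ⟨C₀ * K.B ^ 2, by positivity, fun ι A s c z hA htc => ?_⟩
  have hL : 0 < A.L := lt_of_lt_of_le one_pos hA.one_le
  have hLn : 0 < A.L ^ n := by positivity
  rw [inf_b4_fld_eq_act A s c z]
  unfold Arr.fld
  have h1 : ‖∑ α ∈ A.act s z, c α * A.atom α z‖ ≤ ∑ α ∈ A.act s z, ‖c α‖ * ‖A.atom α z‖ :=
    (norm_sum_le _ _).trans (le_of_eq (Finset.sum_congr rfl fun α _ => norm_mul _ _))
  have h2 : (∑ α ∈ A.act s z, ‖c α‖ * ‖A.atom α z‖) ^ 2
      ≤ (∑ α ∈ A.act s z, ‖c α‖ ^ 2) * ∑ α ∈ A.act s z, ‖A.atom α z‖ ^ 2 :=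
    Finset.sum_mul_sq_le_sq_mul_sq _ _ _
  have h3 : ∑ α ∈ A.act s z, ‖A.atom α z‖ ^ 2 ≤ C₀ * K.B ^ 2 := by
    calc ∑ α ∈ A.act s z, ‖A.atom α z‖ ^ 2 ≤ ∑ _α ∈ A.act s z, (A.L ^ n)⁻¹ * K.B ^ 2 :=
          Finset.sum_le_sum fun α hα => inf_b4_atom_sq hA ((inf_b4_mem_act A s z α).1 hα).1 z
      _ = ((A.act s z).card : ℝ) * ((A.L ^ n)⁻¹ * K.B ^ 2) := by rw [Finset.sum_const, nsmul_eq_mul]
      _ ≤ (C₀ * A.L ^ n) * ((A.L ^ n)⁻¹ * K.B ^ 2) :=
          mul_le_mul_of_nonneg_right (hact ι A s z hA htc) (by positivity)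
      _ = C₀ * K.B ^ 2 := by field_simp
  calc ‖∑ α ∈ A.act s z, c α * A.atom α z‖ ^ 2 ≤ (∑ α ∈ A.act s z, ‖c α‖ * ‖A.atom α z‖) ^ 2 :=
        pow_le_pow_left₀ (norm_nonneg _) h1 2
    _ ≤ (∑ α ∈ A.act s z, ‖c α‖ ^ 2) * ∑ α ∈ A.act s z, ‖A.atom α z‖ ^ 2 := h2
    _ ≤ (∑ α ∈ A.act s z, ‖c α‖ ^ 2) * (C₀ * K.B ^ 2) :=
        mul_le_mul_of_nonneg_left h3 (Finset.sum_nonneg fun _ _ => by positivity)
    _ = _ := mul_comm _ _

/-- L-INF-B4 (~40 l.) -/
theorem inf_arr_sup (n : ℕ) (K : Cls) : ∃ C : ℝ, 0 ≤ C ∧ ∀ (ι : Type) (A : Arr n ι) (s : Finset ι) (c : ι → ℂ) (z : ST n), A.In s K → (∀ α ∈ s, ∃ k : ℤ, A.tc α = k) →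
    ‖A.fld s c z‖ ≤ C * Real.sqrt (energy s c) := by
  obtain ⟨C, hC, h⟩ := inf_arr_sup_loc n K
  refine ⟨Real.sqrt C, Real.sqrt_nonneg _, fun ι A s c z hA htc => ?_⟩
  have h1 := h ι A s c z hA htc
  have h2 : ∑ α ∈ A.act s z, ‖c α‖ ^ 2 ≤ energy s c :=
    Finset.sum_le_sum_of_subset_of_nonneg (fun α hα => ((inf_b4_mem_act A s z α).1 hα).1)
      fun _ _ _ => by positivity
  rw [← Real.sqrt_mul hC]
  refine Real.le_sqrt_of_sq_le (h1.trans (mul_le_mul_of_nonneg_left h2 hC))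

/-- the exit towards the hub -/
theorem inf_arrSupWith (n : ℕ) (K : Cls) : ∃ C : ℝ, 0 ≤ C ∧ ArrSupWith n K C := by
  obtain ⟨C, hC, h⟩ := inf_arr_sup n K
  exact ⟨C, hC, fun ι A s c z hA h0 => h ι A s c z hA fun α hα => ⟨0, by rw [h0 α hα]; simp⟩⟩

/-- L-INF-B4 (~60 l.).  the support of a field: an active label has `tdist ≤ R L` and `|t/L² - σ| ≤ R` -/
theorem inf_act_near {A : Arr n ι} {s : Finset ι} {K : Cls} (hA : A.In s K) {z : ST n} {α : ι} (hα : α ∈ A.act s z) :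
    α ∈ s ∧ A.tdist α z ≤ K.R * A.L ∧ |z.2 / A.L ^ 2 - A.tc α| ≤ K.R := by
  obtain ⟨hs, hne⟩ := (inf_b4_mem_act A s z α).1 hα
  have h := (hA.prof α hs).supp _ hne
  have hL : 0 < A.L := lt_of_lt_of_le one_pos hA.one_le
  have h1 : ‖A.L⁻¹ • (z.1 - A.y α - (2 * z.2) • A.om α)‖ ≤ K.R := (norm_fst_le _).trans h
  have h2 : ‖z.2 / A.L ^ 2 - A.tc α‖ ≤ K.R := (norm_snd_le _).trans h
  refine ⟨hs, ?_, by simpa [Real.norm_eq_abs] using h2⟩
  rw [norm_smul, norm_inv, Real.norm_of_nonneg hL.le, inv_mul_le_iff₀ hL] at h1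
  unfold Arr.tdist
  linarith

/-- L-INF-B4 (~30 l.) -/
theorem inf_fld_eq_act (A : Arr n ι) (s : Finset ι) (c : ι → ℂ) (z : ST n) : A.fld s c z = A.fld (A.act s z) c z :=
  inf_b4_fld_eq_act A s c z

/-! ## 3. Cube Sobolev      (leaves L-INF-B5, L-INF-B6) -/

/-- the coordinate directions of space-time: `i < n` space, `i = n` time -/
noncomputable def bvec : Fin (n + 1) → ST n := Fin.lastCases ((0 : E n), (1 : ℝ)) fun i => (EuclideanSpace.single i (1 : ℝ), (0 : ℝ))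

theorem inf_bvec_norm (i : Fin (n + 1)) : ‖(bvec i : ST n)‖ ≤ 1 := by
  refine Fin.lastCases ?_ (fun i => ?_) i
  · simp [bvec, Prod.norm_def]
  · simp [bvec, Prod.norm_def]

/-- the list of the coordinate directions of `S` -/
noncomputable def bl (S : Finset (Fin (n + 1))) : List (ST n) := (S.sort (· ≤ ·)).map bvec

/-- 1D: `|u(x)| ≤ ∫_a^{a+1} |u| + ∫_a^{a+1} |u'|` -/
theorem inf_b5_one (u u' : ℝ → ℂ) (hu : ∀ t, HasDerivAt u (u' t) t) (hc : Continuous u') (a x : ℝ)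
    (hx : x ∈ Ico a (a + 1)) :
    ‖u x‖ₑ ≤ (∫⁻ t in Ico a (a + 1), ‖u t‖ₑ) + ∫⁻ t in Ico a (a + 1), ‖u' t‖ₑ := by
  have key : ∀ t ∈ Ico a (a + 1), ‖u x‖ₑ ≤ ‖u t‖ₑ + ∫⁻ s in Ico a (a + 1), ‖u' s‖ₑ := by
    intro t ht
    have h1 : ∫ s in t..x, u' s = u x - u t :=
      intervalIntegral.integral_eq_sub_of_hasDerivAt (fun s _ => hu s) (hc.intervalIntegrable _ _)
    have h2 : ‖u x - u t‖ₑ ≤ ∫⁻ s in Ico a (a + 1), ‖u' s‖ₑ := by
      have e1 : ‖u x - u t‖ₑ = ‖∫ s in Set.uIoc t x, u' s‖ₑ := by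
        rw [← h1]
        simp only [enorm_eq_nnnorm, ← NNReal.coe_inj, ENNReal.coe_inj, coe_nnnorm]
        exact intervalIntegral.norm_intervalIntegral_eq _ _ _ _
      rw [e1]
      refine (enorm_integral_le_lintegral_enorm _).trans (lintegral_mono_set ?_)
      intro s hs
      rw [Set.uIoc, mem_Ioc] at hs
      refine ⟨?_, ?_⟩
      · exact (le_min ht.1 hx.1).trans hs.1.le
      · exact hs.2.trans_lt (max_lt ht.2 hx.2)
    calc ‖u x‖ₑ = ‖u t + (u x - u t)‖ₑ := by rw [add_sub_cancel]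
      _ ≤ ‖u t‖ₑ + ‖u x - u t‖ₑ := enorm_add_le _ _
      _ ≤ _ := by gcongr
  have hv : volume (Ico a (a + 1)) = 1 := by simp
  calc ‖u x‖ₑ = ∫⁻ _ in Ico a (a + 1), ‖u x‖ₑ := by rw [setLIntegral_const, hv, mul_one]
    _ ≤ ∫⁻ t in Ico a (a + 1), (‖u t‖ₑ + ∫⁻ s in Ico a (a + 1), ‖u' s‖ₑ) :=
        setLIntegral_mono' measurableSet_Ico key
    _ = _ := by rw [lintegral_add_right _ measurable_const, setLIntegral_const, hv, mul_one]

/-- coordinates of space-time -/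
noncomputable def inf_b5_Phi (x : Fin (n + 1) → ℝ) : ST n :=
  (WithLp.toLp 2 fun i : Fin n => x i.castSucc, x (Fin.last n))

theorem inf_b5_Phi_cont : Continuous (inf_b5_Phi : (Fin (n + 1) → ℝ) → ST n) := by
  unfold inf_b5_Phi
  fun_prop

theorem inf_b5_Phi_update (y : Fin (n + 1) → ℝ) (a : Fin (n + 1)) (t : ℝ) :
    inf_b5_Phi (Function.update y a t) = inf_b5_Phi y + (t - y a) • bvec a := by
  refine Fin.lastCases ?_ (fun i => ?_) a
  · refine Prod.ext ?_ ?_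
    · ext j
      simp [inf_b5_Phi, bvec]
    · simp [inf_b5_Phi, bvec]
  · refine Prod.ext ?_ ?_
    · ext j
      by_cases hj : j = i
      · subst hj
        simp [inf_b5_Phi, bvec]
      · have : j.castSucc ≠ i.castSucc := fun h => hj (Fin.castSucc_injective _ h)
        simp [inf_b5_Phi, bvec, hj]
    · simp [inf_b5_Phi, bvec, Function.update_of_ne (Fin.castSucc_lt_last i).ne']

theorem inf_b5_Phi_mp : MeasurePreserving (inf_b5_Phi : (Fin (n + 1) → ℝ) → ST n) volume volume := by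
  have h1 := volume_preserving_piFinSuccAbove (fun _ : Fin (n + 1) => ℝ) (Fin.last n)
  have h2 : MeasurePreserving (Prod.swap : ℝ × (Fin n → ℝ) → (Fin n → ℝ) × ℝ) volume volume :=
    Measure.measurePreserving_swap
  have h3 : MeasurePreserving (Prod.map (WithLp.toLp 2) id : (Fin n → ℝ) × ℝ → ST n) volume volume :=
    (PiLp.volume_preserving_toLp (Fin n)).prod (MeasurePreserving.id _)
  have h4 := h3.comp (h2.comp h1)
  have e : (inf_b5_Phi : (Fin (n + 1) → ℝ) → ST n) = Prod.map (WithLp.toLp 2) id ∘ Prod.swap ∘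
      ⇑(MeasurableEquiv.piFinSuccAbove (fun _ : Fin (n + 1) => ℝ) (Fin.last n)) := by
    funext x
    refine Prod.ext ?_ ?_
    · ext j
      simp [inf_b5_Phi, MeasurableEquiv.piFinSuccAbove, Fin.insertNthEquiv]
      rfl
    · simp [inf_b5_Phi, MeasurableEquiv.piFinSuccAbove, Fin.insertNthEquiv]
  rw [e]
  exact h4

theorem inf_b5_dirD_contDiff {U : ST n → ℂ} (hU : ContDiff ℝ ∞ U) (l : List (ST n)) :
    ContDiff ℝ ∞ (dirD l U) := by
  induction l with
  | nil => exact hU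
  | cons e l ih =>
    show ContDiff ℝ ∞ (fun z => fderiv ℝ (dirD l U) z e)
    exact (ih.fderiv_right (m := ∞) (by simp)).clm_apply contDiff_const

theorem inf_b5_slice {V : ST n → ℂ} (hV : ContDiff ℝ ∞ V) (k : Fin (n + 1) → ℝ) (a : Fin (n + 1))
    (y : Fin (n + 1) → ℝ) (hy : y a ∈ Ico (k a) (k a + 1)) :
    ‖V (inf_b5_Phi y)‖ₑ ≤ (∫⁻ t in Ico (k a) (k a + 1), ‖V (inf_b5_Phi (Function.update y a t))‖ₑ)
      + ∫⁻ t in Ico (k a) (k a + 1), ‖fderiv ℝ V (inf_b5_Phi (Function.update y a t)) (bvec a)‖ₑ := by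
  have h := inf_b5_one (fun t => V (inf_b5_Phi (Function.update y a t)))
    (fun t => fderiv ℝ V (inf_b5_Phi (Function.update y a t)) (bvec a)) ?_ ?_ (k a) (y a) hy
  · simpa [Function.update_eq_self] using h
  · intro t
    have hd : HasFDerivAt V (fderiv ℝ V (inf_b5_Phi (Function.update y a t)))
        (inf_b5_Phi (Function.update y a t)) :=
      ((hV.differentiable (by simp)) _).hasFDerivAt
    have hl : HasDerivAt (fun t => inf_b5_Phi (Function.update y a t)) (bvec a) t := by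
      simp only [inf_b5_Phi_update]
      have := (((hasDerivAt_id t).sub_const (y a)).smul_const (bvec a)).const_add (inf_b5_Phi y)
      simpa using this
    exact hd.comp_hasDerivAt t hl
  · have h1 : Continuous fun t => inf_b5_Phi (Function.update y a t) :=
      inf_b5_Phi_cont.comp (continuous_const.update a continuous_id)
    exact ((hV.continuous_fderiv (by simp)).comp h1).clm_apply continuous_const

theorem inf_b5_bl_insert {a : Fin (n + 1)} {S : Finset (Fin (n + 1))} (h1 : ∀ b ∈ S, a ≤ b) (h2 : a ∉ S) :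
    (bl (insert a S) : List (ST n)) = bvec a :: bl S := by
  unfold bl
  rw [Finset.sort_insert _ h1 h2, List.map_cons]

/-- the uniform measures on the edges of the cube -/
noncomputable def inf_b5_mu (k : Fin (n + 1) → ℝ) (i : Fin (n + 1)) : Measure ℝ :=
  volume.restrict (Ico (k i) (k i + 1))

instance inf_b5_mu_sf (k : Fin (n + 1) → ℝ) (i : Fin (n + 1)) : SigmaFinite (inf_b5_mu k i) := by
  unfold inf_b5_mu; infer_instance

theorem inf_b5_main {U : ST n → ℂ} (hU : ContDiff ℝ ∞ U) (k : Fin (n + 1) → ℝ) (s : Finset (Fin (n + 1))) :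
    ∀ x : Fin (n + 1) → ℝ, (∀ i ∈ s, x i ∈ Ico (k i) (k i + 1)) →
      ‖U (inf_b5_Phi x)‖ₑ ≤ ∑ S ∈ s.powerset,
        (∫⋯∫⁻_s, (fun y => ‖dirD (bl S) U (inf_b5_Phi y)‖ₑ) ∂(inf_b5_mu k)) x := by
  have hm : ∀ S : Finset (Fin (n + 1)), Measurable fun y => ‖dirD (bl S) U (inf_b5_Phi y)‖ₑ := fun S =>
    ((inf_b5_dirD_contDiff hU _).continuous.comp inf_b5_Phi_cont).measurable.enorm
  induction s using Finset.induction_on_min with
  | empty =>
    intro x _
    simp [bl, dirD]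
  | insert a s ha ih =>
    have has : a ∉ s := fun h => lt_irrefl _ (ha a h)
    intro x hx
    rw [Finset.sum_powerset_insert has]
    calc ‖U (inf_b5_Phi x)‖ₑ
        ≤ ∑ S ∈ s.powerset, (∫⋯∫⁻_s, (fun y => ‖dirD (bl S) U (inf_b5_Phi y)‖ₑ) ∂(inf_b5_mu k)) x :=
          ih x fun i hi => hx i (Finset.mem_insert_of_mem hi)
      _ ≤ ∑ S ∈ s.powerset,
          ((∫⋯∫⁻_insert a s, (fun y => ‖dirD (bl S) U (inf_b5_Phi y)‖ₑ) ∂(inf_b5_mu k)) x
            + (∫⋯∫⁻_insert a s, (fun y => ‖dirD (bl (insert a S)) U (inf_b5_Phi y)‖ₑ) ∂(inf_b5_mu k)) x) := by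
          refine Finset.sum_le_sum fun S hS => ?_
          have hSs : S ⊆ s := Finset.mem_powerset.1 hS
          have e1 : (∫⋯∫⁻_insert a s, (fun y => ‖dirD (bl S) U (inf_b5_Phi y)‖ₑ) ∂(inf_b5_mu k)) x
              + (∫⋯∫⁻_insert a s, (fun y => ‖dirD (bl (insert a S)) U (inf_b5_Phi y)‖ₑ) ∂(inf_b5_mu k)) x
              = (∫⋯∫⁻_insert a s, (fun y => ‖dirD (bl S) U (inf_b5_Phi y)‖ₑ
                  + ‖dirD (bl (insert a S)) U (inf_b5_Phi y)‖ₑ) ∂(inf_b5_mu k)) x := by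
            simp only [lmarginal]
            exact (lintegral_add_left ((hm S).comp measurable_updateFinset) _).symm
          have hm2 : Measurable fun y => ‖dirD (bl S) U (inf_b5_Phi y)‖ₑ
              + ‖dirD (bl (insert a S)) U (inf_b5_Phi y)‖ₑ := (hm S).add (hm (insert a S))
          rw [e1, lmarginal_insert' _ hm2 has]
          simp only [lmarginal]
          refine lintegral_mono fun y' => ?_
          have hya : Function.updateFinset x s y' a = x a := by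
            simp [Function.updateFinset, has]
          have hsl := inf_b5_slice (inf_b5_dirD_contDiff hU (bl S)) k a (Function.updateFinset x s y')
            (by rw [hya]; exact hx a (Finset.mem_insert_self a s))
          have hm3 : Measurable fun t : ℝ =>
              ‖dirD (bl S) U (inf_b5_Phi (Function.update (Function.updateFinset x s y') a t))‖ₑ :=
            (hm S).comp (measurable_update _)
          rw [lintegral_add_left hm3,
            inf_b5_bl_insert (fun b hb => (ha b (hSs hb)).le) (fun h => has (hSs h))]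
          exact hsl
      _ = _ := Finset.sum_add_distrib

/-- the corner of a cube in coordinates -/
noncomputable def inf_b5_k (k : (Fin n → ℤ) × ℤ) : Fin (n + 1) → ℝ :=
  Fin.lastCases (k.2 : ℝ) fun i => (k.1 i : ℝ)

theorem inf_b5_preimage (k : (Fin n → ℤ) × ℤ) :
    (inf_b5_Phi ⁻¹' (cube k) : Set (Fin (n + 1) → ℝ))
      = Set.pi Set.univ fun i => Ico (inf_b5_k k i) (inf_b5_k k i + 1) := by
  ext x
  simp only [mem_preimage, cube, Set.mem_ofPred_eq, Set.mem_pi, mem_univ, forall_true_left, mem_Ico, inf_b5_Phi]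
  constructor
  · rintro ⟨h1, h2⟩ i
    refine Fin.lastCases ?_ (fun j => ?_) i
    · simpa [inf_b5_k] using h2
    · simpa [inf_b5_k] using h1 j
  · intro h
    refine ⟨fun j => ?_, ?_⟩
    · simpa [inf_b5_k] using h j.castSucc
    · simpa [inf_b5_k] using h (Fin.last n)

theorem inf_b5_pi (k : (Fin n → ℤ) × ℤ) :
    Measure.pi (inf_b5_mu (inf_b5_k k))
      = (volume : Measure (Fin (n + 1) → ℝ)).restrict (inf_b5_Phi ⁻¹' (cube k)) := by
  rw [inf_b5_preimage, volume_pi, Measure.restrict_pi_pi]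
  rfl

/-- L-INF-B5 (~60 l.) -/
theorem inf_cube_volume (k : (Fin n → ℤ) × ℤ) : volume (cube k : Set (ST n)) = 1 := by
  rw [← inf_b5_Phi_mp.measure_preimage (inf_cube_measurable k).nullMeasurableSet, inf_b5_preimage,
    Real.volume_pi_Ico]
  simp

/-- L-INF-B5 (~500 l.; may be cut by its prover).  **Cube Sobolev.**   1D: `u` of class `C¹` on `[a, a+1]`: `|u(x)| ≤ ∫_a^{a+1} |u| + ∫_a^{a+1} |u'|` (mean value of `|u|` is attained up to..: `u(x) = u(y) + ∫_y^x u'`, integrate in `y`).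
Induction over the coordinates (freeze the others; Fubini on the cube: `EuclideanSpace.volume_preserving_measurableEquiv`, `volume_pi`, `MeasureTheory.lintegral_prod`; model: `Claimed/Agent/Lib/Sob/Sup1.lean`, `Sup2.lean` (lmarginal)).
Mixed derivatives commute for smooth `U`, so the order of `bl S` is immaterial. -/
theorem inf_sob_cube (U : ST n → ℂ) (hU : ContDiff ℝ ∞ U) (k : (Fin n → ℤ) × ℤ) {z : ST n} (hz : z ∈ cube k) :
    ‖U z‖ₑ ≤ ∑ S ∈ (Finset.univ : Finset (Fin (n + 1))).powerset, ∫⁻ w in cube k, ‖dirD (bl S) U w‖ₑ := by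
  set x : Fin (n + 1) → ℝ := Fin.lastCases z.2 fun i => z.1 i with hx
  have hxz : inf_b5_Phi x = z := by
    refine Prod.ext ?_ ?_
    · ext j
      simp [inf_b5_Phi, hx]
    · simp [inf_b5_Phi, hx]
  have hmem : x ∈ (inf_b5_Phi ⁻¹' (cube k) : Set (Fin (n + 1) → ℝ)) := by
    rw [mem_preimage, hxz]; exact hz
  rw [inf_b5_preimage] at hmem
  have h := inf_b5_main hU (inf_b5_k k) Finset.univ x fun i _ => hmem i (mem_univ i)
  rw [hxz] at h
  refine h.trans (le_of_eq (Finset.sum_congr rfl fun S _ => ?_))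
  rw [lmarginal_univ, inf_b5_pi]
  exact inf_b5_Phi_mp.setLIntegral_comp_preimage (inf_cube_measurable k)
    (inf_b5_dirD_contDiff hU _).continuous.measurable.enorm

theorem inf_B6_dirD_contDiff (l : List (ST n)) {U : ST n → ℂ} (hU : ContDiff ℝ ∞ U) : ContDiff ℝ ∞ (dirD l U) := by
  induction l with
  | nil => exact hU
  | cons e l ih => exact (ih.fderiv_right (m := ∞) (by simp)).clm_apply contDiff_const

/-- L-INF-B6 (~100 l.).  Hölder on a set of measure one (`ENNReal.lintegral_mul_le_Lp_mul_Lq` or `lintegral_rpow`-Jensen) -/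
theorem inf_sob_cube_P (U : ST n → ℂ) (hU : ContDiff ℝ ∞ U) (k : (Fin n → ℤ) × ℤ) {P : ℝ} (hP : 1 ≤ P) :
    (⨆ z ∈ cube k, ‖U z‖ₑ) ≤ ∑ S ∈ (Finset.univ : Finset (Fin (n + 1))).powerset, (∫⁻ w in cube k, ‖dirD (bl S) U w‖ₑ ^ P) ^ (1 / P) := by
  have hprob : IsProbabilityMeasure (volume.restrict (cube k : Set (ST n))) :=
    ⟨by rw [Measure.restrict_apply_univ, inf_cube_volume]⟩
  have hP0 : 0 < P := by linarith
  refine iSup₂_le fun z hz => (inf_sob_cube U hU k hz).trans (Finset.sum_le_sum fun S _ => ?_)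
  have hm : AEStronglyMeasurable (dirD (bl S) U) (volume.restrict (cube k : Set (ST n))) :=
    (inf_B6_dirD_contDiff _ hU).continuous.aestronglyMeasurable
  have h1 := eLpNorm_le_eLpNorm_of_exponent_le (p := 1) (q := ENNReal.ofReal P)
    (by rw [← ENNReal.ofReal_one]; exact ENNReal.ofReal_le_ofReal hP) hm
  rw [eLpNorm_one_eq_lintegral_enorm, eLpNorm_eq_lintegral_rpow_enorm_toReal (by simpa using hP0) ENNReal.ofReal_ne_top,
    ENNReal.toReal_ofReal hP0.le] at h1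
  exact h1

/-- L-INF-B6 (~60 l.).  (s:sobolev), first line: `(∑_{2^{n+1} terms} a_S)² ≤ 2^{n+1} ∑ a_S²` -/
theorem inf_sob_cube_sq (U : ST n → ℂ) (hU : ContDiff ℝ ∞ U) (k : (Fin n → ℤ) × ℤ) {P : ℝ} (hP : 1 ≤ P) :
    (⨆ z ∈ cube k, ‖U z‖ₑ) ^ 2 ≤ 2 ^ (n + 1) * ∑ S ∈ (Finset.univ : Finset (Fin (n + 1))).powerset, (∫⁻ w in cube k, ‖dirD (bl S) U w‖ₑ ^ P) ^ (2 / P) := by
  have h1 := inf_sob_cube_P U hU k hP
  have h2 := ENNReal.rpow_sum_le_const_mul_sum_rpow (Finset.univ : Finset (Fin (n + 1))).powerset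
    (fun S => (∫⁻ w in cube k, ‖dirD (bl S) U w‖ₑ ^ P) ^ (1 / P)) (p := 2) (by norm_num)
  have h3 : (((Finset.univ : Finset (Fin (n + 1))).powerset.card : ℕ) : ℝ≥0∞) ^ ((2 : ℝ) - 1) = 2 ^ (n + 1) := by
    rw [Finset.card_powerset, Finset.card_univ, Fintype.card_fin]
    norm_num
  rw [h3] at h2
  calc (⨆ z ∈ cube k, ‖U z‖ₑ) ^ 2
      ≤ (∑ S ∈ (Finset.univ : Finset (Fin (n + 1))).powerset, (∫⁻ w in cube k, ‖dirD (bl S) U w‖ₑ ^ P) ^ (1 / P)) ^ 2 :=
        pow_le_pow_left' h1 2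
    _ = (∑ S ∈ (Finset.univ : Finset (Fin (n + 1))).powerset, (∫⁻ w in cube k, ‖dirD (bl S) U w‖ₑ ^ P) ^ (1 / P)) ^ (2 : ℝ) := by
        rw [ENNReal.rpow_two]
    _ ≤ _ := h2
    _ = _ := by
        congr 1
        refine Finset.sum_congr rfl fun S _ => ?_
        rw [← ENNReal.rpow_mul]
        congr 1
        ring

/-! ## 4. Exact fields      (leaves L-INF-B7, L-INF-B8) -/

/-- the data of the derivative of an exact field in the direction `e` -/
noncomputable def derD (e : ST n) (g : E n → ℂ) (ξ : E n) : ℂ := Complex.I * ((⟪e.1, ξ⟫_ℝ - e.2 * ‖ξ‖ ^ 2 : ℝ) : ℂ) * g ξ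

/-- iterated -/
noncomputable def derDL (l : List (ST n)) (g : E n → ℂ) : E n → ℂ := l.foldr derD g

/-- the phase as a continuous linear functional of the point -/
noncomputable def infPh (ξ : E n) : ST n →L[ℝ] ℝ :=
  (innerSL ℝ ξ).comp (ContinuousLinearMap.fst ℝ (E n) ℝ) - (‖ξ‖ ^ 2) • ContinuousLinearMap.snd ℝ (E n) ℝ

theorem inf_B7_ph_apply (ξ : E n) (e : ST n) : infPh ξ e = ⟪e.1, ξ⟫_ℝ - e.2 * ‖ξ‖ ^ 2 := by
  simp [infPh, real_inner_comm, mul_comm]

theorem inf_B7_ph_cont : Continuous (infPh : E n → ST n →L[ℝ] ℝ) := by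
  unfold infPh
  fun_prop

theorem inf_B7_ph_le (ξ : E n) (e : ST n) : |⟪e.1, ξ⟫_ℝ - e.2 * ‖ξ‖ ^ 2| ≤ (‖ξ‖ + ‖ξ‖ ^ 2) * ‖e‖ := by
  have h1 : |⟪e.1, ξ⟫_ℝ| ≤ ‖e.1‖ * ‖ξ‖ := abs_real_inner_le_norm _ _
  have h2 : ‖e.1‖ ≤ ‖e‖ := norm_fst_le e
  have h3 : |e.2| ≤ ‖e‖ := norm_snd_le e
  have h4 : |e.2 * ‖ξ‖ ^ 2| = |e.2| * ‖ξ‖ ^ 2 := by rw [abs_mul, abs_of_nonneg (by positivity : (0 : ℝ) ≤ ‖ξ‖ ^ 2)]
  calc |⟪e.1, ξ⟫_ℝ - e.2 * ‖ξ‖ ^ 2| ≤ |⟪e.1, ξ⟫_ℝ| + |e.2 * ‖ξ‖ ^ 2| := abs_sub _ _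
    _ ≤ ‖e‖ * ‖ξ‖ + ‖e‖ * ‖ξ‖ ^ 2 := by
        rw [h4]
        exact add_le_add (h1.trans (mul_le_mul_of_nonneg_right h2 (norm_nonneg _))) (mul_le_mul_of_nonneg_right h3 (by positivity))
    _ = _ := by ring

theorem inf_B7_derD_le {R₀ : ℝ} {g : E n → ℂ} (hg : Dat R₀ g) (e : ST n) (ξ : E n) :
    ‖derD e g ξ‖ ≤ ((R₀ + R₀ ^ 2) * ‖e‖) * ‖g ξ‖ := by
  by_cases h0 : g ξ = 0
  · simp [derD, h0]
  · have hξ := hg.supp ξ h0
    have hR : 0 ≤ R₀ := (norm_nonneg _).trans hξ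
    unfold derD
    rw [norm_mul, norm_mul, Complex.norm_I, one_mul, Complex.norm_real, Real.norm_eq_abs]
    refine mul_le_mul_of_nonneg_right ((inf_B7_ph_le ξ e).trans ?_) (norm_nonneg _)
    refine mul_le_mul_of_nonneg_right ?_ (norm_nonneg _)
    have : ‖ξ‖ ^ 2 ≤ R₀ ^ 2 := pow_le_pow_left₀ (norm_nonneg _) hξ 2
    linarith

theorem inf_B7_derD_meas {g : E n → ℂ} (hg : Measurable g) (e : ST n) : Measurable (derD e g) := by
  unfold derD
  have h1 : Continuous fun ξ : E n => Complex.I * ((⟪e.1, ξ⟫_ℝ - e.2 * ‖ξ‖ ^ 2 : ℝ) : ℂ) := by fun_prop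
  exact h1.measurable.mul hg

/-- L-INF-B7 (~60 l.) -/
theorem inf_derD_dat {R₀ : ℝ} {g : E n → ℂ} (hg : Dat R₀ g) (e : ST n) : Dat R₀ (derD e g) := by
  refine ⟨inf_B7_derD_meas hg.meas e, fun ξ h => hg.supp ξ fun h0 => h (by simp [derD, h0]), ?_⟩
  exact hg.l2.of_le_mul (inf_B7_derD_meas hg.meas e).aestronglyMeasurable
    (Filter.Eventually.of_forall fun ξ => inf_B7_derD_le hg e ξ)

/-- L-INF-B7 (~60 l.) -/
theorem inf_derD_norm {R₀ : ℝ} {g : E n → ℂ} (hg : Dat R₀ g) {e : ST n} (he : ‖e‖ ≤ 1) :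
    eLpNorm (derD e g) 2 volume ≤ ENNReal.ofReal (R₀ + R₀ ^ 2) * eLpNorm g 2 volume := by
  refine eLpNorm_le_mul_eLpNorm_of_ae_le_mul (Filter.Eventually.of_forall fun ξ => ?_) 2
  by_cases h0 : g ξ = 0
  · simp [derD, h0]
  · have hR : 0 ≤ R₀ := (norm_nonneg _).trans (hg.supp ξ h0)
    refine (inf_B7_derD_le hg e ξ).trans (mul_le_mul_of_nonneg_right ?_ (norm_nonneg _))
    exact mul_le_of_le_one_right (by positivity) he

theorem inf_B7_car_eq (ξ : E n) (z : ST n) : car ξ z = Complex.exp (Complex.I * ((infPh ξ z : ℝ) : ℂ)) := by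
  rw [inf_B7_ph_apply]; rfl

/-- the derivative of the integrand -/
noncomputable def infDer (g : E n → ℂ) (z : ST n) (ξ : E n) : ST n →L[ℝ] ℂ :=
  (Complex.I * car ξ z * g ξ) • (Complex.ofRealCLM.comp (infPh ξ))

theorem inf_B7_der_apply (g : E n → ℂ) (z : ST n) (ξ : E n) (e : ST n) : infDer g z ξ e = car ξ z * derD e g ξ := by
  simp only [infDer, derD, smul_apply, ContinuousLinearMap.comp_apply, Complex.ofRealCLM_apply,
    inf_B7_ph_apply, smul_eq_mul]
  ring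

theorem inf_B7_hasFDerivAt (g : E n → ℂ) (z : ST n) (ξ : E n) :
    HasFDerivAt (fun z => car ξ z * g ξ) (infDer g z ξ) z := by
  have h1 : HasFDerivAt (fun z : ST n => ((infPh ξ z : ℝ) : ℂ)) (Complex.ofRealCLM.comp (infPh ξ)) z :=
    (Complex.ofRealCLM.comp (infPh ξ)).hasFDerivAt
  have h2 := ((h1.const_mul Complex.I).cexp).mul_const (g ξ)
  have e1 : (fun z => car ξ z * g ξ) = fun z => Complex.exp (Complex.I * ((infPh ξ z : ℝ) : ℂ)) * g ξ := by
    funext z; rw [inf_B7_car_eq]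
  rw [e1]
  refine h2.congr_fderiv (ContinuousLinearMap.ext fun e => ?_)
  simp only [infDer, inf_B7_car_eq, smul_apply, ContinuousLinearMap.comp_apply, Complex.ofRealCLM_apply,
    smul_eq_mul]
  ring

theorem inf_B7_der_norm {R₀ : ℝ} {g : E n → ℂ} (hg : Dat R₀ g) (z : ST n) (ξ : E n) :
    ‖infDer g z ξ‖ ≤ (R₀ + R₀ ^ 2) * ‖g ξ‖ := by
  have hnn : 0 ≤ (R₀ + R₀ ^ 2) * ‖g ξ‖ := by
    by_cases h0 : g ξ = 0
    · simp [h0]
    · have hR : 0 ≤ R₀ := (norm_nonneg _).trans (hg.supp ξ h0)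
      positivity
  refine ContinuousLinearMap.opNorm_le_bound _ hnn fun e => ?_
  rw [inf_B7_der_apply, norm_mul, inf_car_norm, one_mul]
  exact (inf_B7_derD_le hg e ξ).trans (le_of_eq (by ring))

theorem inf_B7_der_meas {g : E n → ℂ} (hg : Measurable g) (z : ST n) : AEStronglyMeasurable (infDer g z) volume := by
  unfold infDer
  have h1 : Continuous fun ξ : E n => car ξ z :=
    (inf_car_continuous (n := n)).comp (f := fun ξ : E n => (ξ, z)) (by fun_prop)
  have h2 : Measurable fun ξ : E n => Complex.I * car ξ z * g ξ := (measurable_const.mul h1.measurable).mul hg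
  have h3 : Continuous fun ξ : E n => Complex.ofRealCLM.comp (infPh ξ) :=
    continuous_const.clm_comp inf_B7_ph_cont
  exact h2.aestronglyMeasurable.smul h3.aestronglyMeasurable

/-- L-INF-B7 (~150 l.; `hasFDerivAt_integral_of_dominated_of_fderiv_le`, domination by `(R₀ + R₀²) |g|`) -/
theorem inf_ext_hasFDerivAt {R₀ : ℝ} {g : E n → ℂ} (hg : Dat R₀ g) (z : ST n) :
    DifferentiableAt ℝ (ext g) z ∧ ∀ e, fderiv ℝ (ext g) z e = ext (derD e g) z := by
  have hb : Integrable fun ξ => (R₀ + R₀ ^ 2) * ‖g ξ‖ := (inf_dat_integrable hg).norm.const_mul _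
  have key : HasFDerivAt (ext g) (∫ ξ, infDer g z ξ) z := by
    refine hasFDerivAt_integral_of_dominated_of_fderiv_le (F := fun z ξ => car ξ z * g ξ) (F' := fun z ξ => infDer g z ξ)
      (bound := fun ξ => (R₀ + R₀ ^ 2) * ‖g ξ‖) Filter.univ_mem ?_ (inf_ext_integrable hg z) (inf_B7_der_meas hg.meas z) ?_ hb ?_
    · exact Filter.Eventually.of_forall fun z' => (inf_ext_integrable hg z').aestronglyMeasurable
    · exact Filter.Eventually.of_forall fun ξ z' _ => inf_B7_der_norm hg z' ξ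
    · exact Filter.Eventually.of_forall fun ξ z' _ => inf_B7_hasFDerivAt g z' ξ
  refine ⟨key.differentiableAt, fun e => ?_⟩
  have hint : Integrable (infDer g z) :=
    hb.mono' (inf_B7_der_meas hg.meas z) (Filter.Eventually.of_forall fun ξ => inf_B7_der_norm hg z ξ)
  rw [key.fderiv, ContinuousLinearMap.integral_apply hint]
  unfold ext
  exact integral_congr_ae (Filter.Eventually.of_forall fun ξ => inf_B7_der_apply g z ξ e)

theorem inf_B7_contDiff_nat {R₀ : ℝ} (k : ℕ) : ∀ g : E n → ℂ, Dat R₀ g → ContDiff ℝ k (ext g) := by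
  induction k with
  | zero =>
    intro g hg
    exact contDiff_zero.2 (inf_ext_continuous hg)
  | succ k ih =>
    intro g hg
    have : ((k + 1 : ℕ) : WithTop ℕ∞) = (k : WithTop ℕ∞) + 1 := by norm_cast
    rw [this, contDiff_succ_iff_fderiv_apply]
    refine ⟨fun z => (inf_ext_hasFDerivAt hg z).1, fun h => absurd h (by simp), fun e => ?_⟩
    have e1 : (fun z => fderiv ℝ (ext g) z e) = ext (derD e g) := by
      funext z; exact (inf_ext_hasFDerivAt hg z).2 e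
    rw [e1]
    exact ih _ (inf_derD_dat hg e)

/-- L-INF-B7 (~150 l.; e.g. `contDiff_infty_iff_fderiv`-induction with `inf_ext_hasFDerivAt` in coordinates, or `VectorFourier.contDiff_fourierIntegral` for the push forward of `g dξ` to the paraboloid) -/
theorem inf_ext_contDiff {R₀ : ℝ} {g : E n → ℂ} (hg : Dat R₀ g) : ContDiff ℝ ∞ (ext g) :=
  contDiff_infty.2 fun k => inf_B7_contDiff_nat k g hg

/-- L-INF-B8 (~40 l.) -/
theorem inf_derDL_dat {R₀ : ℝ} {g : E n → ℂ} (hg : Dat R₀ g) (l : List (ST n)) : Dat R₀ (derDL l g) := by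
  induction l with
  | nil => exact hg
  | cons e l ih => exact inf_derD_dat ih e

/-- L-INF-B8 (~50 l.) -/
theorem inf_derDL_norm {R₀ : ℝ} {g : E n → ℂ} (hg : Dat R₀ g) (l : List (ST n)) (he : ∀ e ∈ l, ‖e‖ ≤ 1) :
    eLpNorm (derDL l g) 2 volume ≤ ENNReal.ofReal (R₀ + R₀ ^ 2) ^ l.length * eLpNorm g 2 volume := by
  induction l with
  | nil => simp [derDL]
  | cons e l ih =>
    have h1 : eLpNorm (derD e (derDL l g)) 2 volume
        ≤ ENNReal.ofReal (R₀ + R₀ ^ 2) * eLpNorm (derDL l g) 2 volume :=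
      inf_derD_norm (inf_derDL_dat hg l) (he e List.mem_cons_self)
    have h2 := ih fun e' he' => he e' (List.mem_cons_of_mem _ he')
    calc eLpNorm (derDL (e :: l) g) 2 volume = eLpNorm (derD e (derDL l g)) 2 volume := rfl
      _ ≤ ENNReal.ofReal (R₀ + R₀ ^ 2) * eLpNorm (derDL l g) 2 volume := h1
      _ ≤ ENNReal.ofReal (R₀ + R₀ ^ 2) * (ENNReal.ofReal (R₀ + R₀ ^ 2) ^ l.length * eLpNorm g 2 volume) := by
          gcongr
      _ = _ := by rw [List.length_cons, pow_succ' _ l.length, mul_assoc]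

/-- L-INF-B8 (~40 l.) -/
theorem inf_ext_dirD {R₀ : ℝ} {g : E n → ℂ} (hg : Dat R₀ g) (l : List (ST n)) : dirD l (ext g) = ext (derDL l g) := by
  induction l with
  | nil => rfl
  | cons e l ih =>
    funext z
    show fderiv ℝ (dirD l (ext g)) z e = ext (derD e (derDL l g)) z
    rw [ih]
    exact (inf_ext_hasFDerivAt (inf_derDL_dat hg l) z).2 e

/-- L-INF-B8 (~60 l.).  **Suprema over unit cubes from integrals over the same cubes** (replaces the reproducing kernel in the proof of d:dz-input). -/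
theorem inf_ext_sup_cube {R₀ : ℝ} {g : E n → ℂ} (hg : Dat R₀ g) (k : (Fin n → ℤ) × ℤ) :
    (⨆ z ∈ cube k, ‖ext g z‖ₑ) ^ 2 ≤ 2 ^ (n + 1) * ∑ S ∈ (Finset.univ : Finset (Fin (n + 1))).powerset, ∫⁻ w in cube k, ‖ext (derDL (bl S) g) w‖ₑ ^ 2 := by
  have h := inf_sob_cube_sq (ext g) (inf_ext_contDiff hg) k (P := 2) (by norm_num)
  refine h.trans (le_of_eq ?_)
  congr 1
  refine Finset.sum_congr rfl fun S _ => ?_
  rw [inf_ext_dirD hg, div_self (by norm_num : (2 : ℝ) ≠ 0), ENNReal.rpow_one]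
  simp only [ENNReal.rpow_two]

/-- L-INF-B8 (~60 l.).  the same for arrays -/
theorem inf_fld_sup_cube {A : Arr n ι} {s : Finset ι} {K : Cls} (hA : A.In s K) (c : ι → ℂ) (k : (Fin n → ℤ) × ℤ) {P : ℝ} (hP : 1 ≤ P) :
    (⨆ z ∈ cube k, ‖A.fld s c z‖ₑ) ^ 2
      ≤ 2 ^ (n + 1) * ∑ S ∈ (Finset.univ : Finset (Fin (n + 1))).powerset, (∫⁻ w in cube k, ‖(A.derL (bl S)).fld s c w‖ₑ ^ P) ^ (2 / P) := by
  have h := inf_sob_cube_sq (A.fld s c) (inf_fld_contDiff hA c) k hP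
  refine h.trans (le_of_eq ?_)
  congr 1
  refine Finset.sum_congr rfl fun S _ => ?_
  rw [inf_fld_dirD hA c]

end Claimed.Agent.R257
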