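import Mathlib

/-!
# R257 / Infra / Defs : CORE DEFINITIONS OF ROW 257 (S0497)        (design helper159, report 853 sec. C; typed by helper244)      -- SHARED, FROZEN

Paper H = "Endpoint pointwise convergence for the Schroedinger equation in higher dimensions"; ONE development for all `n ≥ 2`.
Design decisions (report 853 B): D1 space-time is `ST n = E n × ℝ` (sup metric, product volume), never `EuclideanSpace (Fin (n+1))`; D2 profiles are smooth, only finitely many bounds are tracked;
D3 coefficients are not part of the array, subarray = `Finset`, finite arrays only, functionals are `ℝ≥0∞`-valued; D4 no tempered distributions; D8 paper normalisation `e^{i(x·ξ - t|ξ|²)}`.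

* `car ω z`          carrier `e^{i(x·ω - t|ω|²)}`
* `ext g z`          exact field `∫ car ξ z g ξ dξ`;     `extT G z` thick field (superposition of modulated exact fields)
* `Dat R₀ g`         data: measurable, supported in the ball `R₀`, square integrable
* `chart L ω y σ z`  native coordinates `((x - y - 2tω)/L, t/L² - σ)`
* `Prof J R B φ`     compact smooth profile with `J` controlled derivatives;    `BL κ P' B φ` band limited profile
* `Arr n ι`          packet array, fields `L om y tc pf` = scale, frequencies, intercepts, native time centres, native profiles (`ω σ φ` are notations in some scopes, hence the ASCII names)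
                     (H d:measure (d:array): `tc = 0`;  H p:conventions: `tc` integer valued, `k = n`, `N = L`);   `atom`, `fld`, `energy`, `lab`, `tdist`
* `Cls`, `Arr.In`    class of arrays (derivative order, support radius, bound, frequency radius, phase space multiplicity)
* `Grow μ m a`, `Slab μ T`, `InBall μ c r`, `Dens μ m χ`, `TubeMom μ A s m D M`     admissible measures (H d:measure, w:weak)
* `cube k`, `supN β μ U`     half open unit cubes, fractal square functional `∑_q μ(q)^β sup_q |U|²`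
-/

set_option autoImplicit false

namespace Claimed.Agent.R257

open MeasureTheory Metric Set
open scoped ENNReal ContDiff InnerProductSpace

/-- space -/
abbrev E (n : ℕ) := EuclideanSpace ℝ (Fin n)

/-- space-time: sup metric, product volume -/
abbrev ST (n : ℕ) := E n × ℝ

variable {n : ℕ}

/-- the carrier `e^{i(x·ω - t|ω|²)}` -/
noncomputable def car (w : E n) (z : ST n) : ℂ :=
  Complex.exp (Complex.I * ((⟪z.1, w⟫_ℝ - z.2 * ‖w‖ ^ 2 : ℝ) : ℂ))

/-- the exact field (extension operator, paper normalisation without the factor `(2π)^{-n}`) -/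
noncomputable def ext (g : E n → ℂ) (z : ST n) : ℂ := ∫ ξ, car ξ z * g ξ

/-- the thick field: superposition of modulated exact fields (`p.2` = vertical distance to the paraboloid) -/
noncomputable def extT (G : ST n → ℂ) (z : ST n) : ℂ :=
  ∫ p : ST n, car p.1 z * Complex.exp (-Complex.I * ((z.2 * p.2 : ℝ) : ℂ)) * G p

/-- data of an exact field -/
structure Dat (R₀ : ℝ) (g : E n → ℂ) : Prop where
  meas : Measurable g
  supp : ∀ ξ, g ξ ≠ 0 → ‖ξ‖ ≤ R₀
  l2 : MemLp g 2 volume

/-- native coordinates of a packet of scale `L`, frequency `ω`, intercept `y`, native time centre `σ` -/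
noncomputable def chart (L : ℝ) (w y : E n) (τ : ℝ) (z : ST n) : ST n :=
  (L⁻¹ • (z.1 - y - (2 * z.2) • w), z.2 / L ^ 2 - τ)

/-- compact smooth profile, `J` controlled derivatives -/
structure Prof (J : ℕ) (R B : ℝ) (φ : ST n → ℂ) : Prop where
  smooth : ContDiff ℝ ∞ φ
  supp : ∀ z, φ z ≠ 0 → ‖z‖ ≤ R
  bound : ∀ j ≤ J, ∀ z, ‖iteratedFDeriv ℝ j φ z‖ ≤ B

/-- band limited profile: fixed point of the convolution with `κ`, polynomial decay of order `P'` -/
structure BL (κ : ST n → ℂ) (P' : ℕ) (B : ℝ) (φ : ST n → ℂ) : Prop where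
  cont : Continuous φ
  decay : ∀ X, ‖φ X‖ ≤ B * (1 + ‖X‖) ^ (-(P' : ℤ))
  repro : ∀ X, φ X = ∫ Y, κ (X - Y) * φ Y

/-- packet array of scale `L` -/
structure Arr (n : ℕ) (ι : Type) where
  /-- scale -/
  L : ℝ
  /-- frequencies -/
  om : ι → E n
  /-- intercepts -/
  y : ι → E n
  /-- native time centres -/
  tc : ι → ℝ
  /-- native profiles -/
  pf : ι → ST n → ℂ

variable {ι : Type}

/-- the normalised atom `L^{-n/2} e^{i(x·ω - t|ω|²)} φ((x - y - 2tω)/L, t/L² - σ)` -/
noncomputable def Arr.atom (A : Arr n ι) (α : ι) (z : ST n) : ℂ :=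
  ((A.L ^ (-(n : ℝ) / 2) : ℝ) : ℂ) * car (A.om α) z * A.pf α (chart A.L (A.om α) (A.y α) (A.tc α) z)

/-- the field of the subarray `s` with coefficients `c` -/
noncomputable def Arr.fld (A : Arr n ι) (s : Finset ι) (c : ι → ℂ) (z : ST n) : ℂ :=
  ∑ α ∈ s, c α * A.atom α z

/-- coefficient energy -/
noncomputable def energy (s : Finset ι) (c : ι → ℂ) : ℝ := ∑ α ∈ s, ‖c α‖ ^ 2

/-- normalised phase space label `(Lω, y/L + 2σLω, σ)` -/
noncomputable def Arr.lab (A : Arr n ι) (α : ι) : E n × E n × ℝ :=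
  (A.L • A.om α, A.L⁻¹ • A.y α + (2 * A.tc α * A.L) • A.om α, A.tc α)

/-- transverse distance of `z` to the trajectory of `α` -/
noncomputable def Arr.tdist (A : Arr n ι) (α : ι) (z : ST n) : ℝ := ‖z.1 - A.y α - (2 * z.2) • A.om α‖

/-- parameters of a class of arrays -/
structure Cls where
  /-- number of controlled derivatives -/
  J : ℕ
  /-- radius of the profile supports -/
  R : ℝ
  /-- bound of the controlled derivatives -/
  B : ℝ
  /-- radius of the frequency region -/
  Rω : ℝ
  /-- phase space multiplicity -/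
  m₀ : ℕ

/-- the subarray `s` of `A` belongs to the class `K` -/
structure Arr.In (A : Arr n ι) (s : Finset ι) (K : Cls) : Prop where
  one_le : 1 ≤ A.L
  prof : ∀ α ∈ s, Prof K.J K.R K.B (A.pf α)
  freq : ∀ α ∈ s, ‖A.om α‖ ≤ K.Rω
  /-- per frequency slot `ξ`, time slab `τ` and intercept cell `y` AT THE COMMON TIME `τ` of the slab: at most `m₀` packets
  (same form as `PFam.In.mult` of `Pk/Defs`; invariant under `Arr.resc` and under time translations; the first version, with `lab` = transport to the packet's OWN time, was too weak for real `tc`: helper12, helper53) -/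
  mult : ∀ (ξ y : E n) (τ : ℝ) (t : Finset ι), t ⊆ s →
    (∀ α ∈ t, ‖A.L • A.om α - ξ‖ ≤ 1 ∧ |A.tc α - τ| ≤ 1 ∧ ‖A.L⁻¹ • A.y α + (2 * τ * A.L) • A.om α - y‖ ≤ 1) → t.card ≤ K.m₀

/-- `a`-dimensional growth with parameter `m` (H (d:ball-growth), `a = n`) -/
def Grow (μ : Measure (ST n)) (m a : ℝ) : Prop :=
  ∀ (z : ST n) (r : ℝ), 1 ≤ r → μ (closedBall z r) ≤ ENNReal.ofReal (m * r ^ a)

/-- time range `|t| ≤ T` -/
def Slab (μ : Measure (ST n)) (T : ℝ) : Prop := μ {z | T < |z.2|} = 0

/-- spatial support in the ball `B(c,r)` -/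
def InBall (μ : Measure (ST n)) (c : E n) (r : ℝ) : Prop := μ {z | r < ‖z.1 - c‖} = 0

/-- unit density `μ(B(z,1)) ≤ m χ` (H w:weak) -/
def Dens (μ : Measure (ST n)) (m χ : ℝ) : Prop := ∀ z : ST n, μ (closedBall z 1) ≤ ENNReal.ofReal (m * χ)

/-- tube moment condition with sparsity `D` (H (d:tube-moment)) -/
def TubeMom (μ : Measure (ST n)) (A : Arr n ι) (s : Finset ι) (m D : ℝ) (M : ℕ) : Prop :=
  ∀ α ∈ s, ∫⁻ z, ENNReal.ofReal ((1 + A.tdist α z / A.L) ^ (-(M : ℤ))) ∂μ ≤ ENNReal.ofReal (m * A.L ^ ((n : ℝ) + 1) / D)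

/-- half open unit cube with corner `k` -/
def cube (k : (Fin n → ℤ) × ℤ) : Set (ST n) :=
  {z | (∀ i, (k.1 i : ℝ) ≤ z.1 i ∧ z.1 i < k.1 i + 1) ∧ (k.2 : ℝ) ≤ z.2 ∧ z.2 < k.2 + 1}

/-- half open cube of side `a` with corner `a k` -/
def cubeS (a : ℝ) (k : (Fin n → ℤ) × ℤ) : Set (ST n) :=
  {z | (∀ i, a * (k.1 i : ℝ) ≤ z.1 i ∧ z.1 i < a * (k.1 i + 1)) ∧ a * (k.2 : ℝ) ≤ z.2 ∧ z.2 < a * (k.2 + 1)}

/-- the fractal square functional `∑_q μ(q)^β sup_q |U|²`  (`β = 2/(n+1)`: H (d:compact-fractal), P (src7)) -/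
noncomputable def supN (β : ℝ) (μ : Measure (ST n)) (U : ST n → ℂ) : ℝ≥0∞ :=
  ∑' k : (Fin n → ℤ) × ℤ, μ (cube k) ^ β * (⨆ z ∈ cube k, ‖U z‖ₑ) ^ 2

/-- the exponents of the paper -/
noncomputable def bet (n : ℕ) : ℝ := 2 / ((n : ℝ) + 1)

/-- `e = n²/(n+1)` -/
noncomputable def eex (n : ℕ) : ℝ := (n : ℝ) ^ 2 / ((n : ℝ) + 1)

end Claimed.Agent.R257
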