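import Claimed.Agent.R257.Infra.ArrB
import Claimed.Agent.R257.Weak.Choice

/-!
# R257 / Infra / Exit : the exits of INFRA in the exact forms of `Weak/Choice.lean`        (helper53)
-/

set_option autoImplicit false

namespace Claimed.Agent.R257

/-- **(d:array-sup)** in the form consumed by `wc_weak` -/
theorem inf_arrSupStmt (n : ℕ) (W : WCon) : ArrSupStmt n W := fun B => by
  obtain ⟨C, -, h⟩ := inf_arrSupWith n (W.wJB 0 B).K
  exact ⟨C, h⟩

end Claimed.Agent.R257
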